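import Crest.Agent.R307.Elim2
import Crest.Agent.Tools.KB
import Crest.Agent.R307.Edge.B2x

-- ▼ part R307/EdgeCore
section

/-!
Row 307 (S0471), flow route: the two-point step on the edge lines `t = -1` and `s = 1`
for the potential `Ψ g = ρ²/c + ρ² b (φ(g) - c)`.
-/

set_option autoImplicit false

namespace Crest.Agent.R307.Edge

open Crest.Agent.R307.Flow Crest.Agent.R307.Elim

/-- the scaled step -/
lemma pairStep_of_K' {ρ s t al be b : ℝ} (h0 : 0 < ρ) (h1 : ρ < 1) (hs : |s| ≤ 1)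
    (ht : |t| ≤ 1) (hal : 0 ≤ al) (hbe : 0 ≤ be)
    (hg : 0 < ph ((1 + ρ) / 2 * s + (1 - ρ) / 2 * t))
    (hK : ∀ x y, FX ρ s x → FX ρ t y →
      |(1 + ρ) / 2 * x + (1 - ρ) / 2 * y| ≤ ρ * |s - t| / 2 →
      ((1 + ρ) / 2 * x + (1 - ρ) / 2 * y) ^ 2 /
        (1 - ((1 + ρ) / 2 * s + (1 - ρ) / 2 * t) ^ 2 +
          ((1 + ρ) / 2 * s + (1 - ρ) / 2 * t) * ((1 + ρ) / 2 * x + (1 - ρ) / 2 * y)) ≤
      (1 + ρ) / 2 * al * (x ^ 2 / (1 - s ^ 2 + s * x)) +
        (1 - ρ) / 2 * be * (y ^ 2 / (1 - t ^ 2 + t * y)))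
    (hii : (1 + ρ) / 2 * al * (ph s * ((1 / ph ρ - b * ph ρ) + b * ph s)) +
      (1 - ρ) / 2 * be * (ph t * ((1 / ph ρ - b * ph ρ) + b * ph t)) +
      ((s - t) / 2) ^ 2 / (1 - ((1 + ρ) / 2 * s + (1 - ρ) / 2 * t) ^ 2 +
          ((1 + ρ) / 2 * s + (1 - ρ) / 2 * t) * (ρ * (s - t) / 2)) ≤
      ph ((1 + ρ) / 2 * s + (1 - ρ) / 2 * t) *
        ((1 / ph ρ - b * ph ρ) + b * ph ((1 + ρ) / 2 * s + (1 - ρ) / 2 * t))) :
    PairStep ρ s t (fun g => ρ ^ 2 / ph ρ + ρ ^ 2 * b * (ph g - ph ρ)) := by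
  refine pairStep_of_K h0 h1 hs ht hal hbe hg hK ?_
  have h2 := mul_le_mul_of_nonneg_left hii (sq_nonneg ρ)
  set K := 1 - ((1 + ρ) / 2 * s + (1 - ρ) / 2 * t) ^ 2 +
          ((1 + ρ) / 2 * s + (1 - ρ) / 2 * t) * (ρ * (s - t) / 2)
  have e : (ρ * (s - t) / 2) ^ 2 / K = ρ ^ 2 * (((s - t) / 2) ^ 2 / K) := by ring
  rw [e]
  refine le_trans (le_of_eq ?_) (h2.trans (le_of_eq ?_))
  · ring
  · ring

lemma exists_r {ρ : ℝ} (h0 : 0 < ρ) (h1 : ρ < 1) : ∃ r : ℝ, 0 < r ∧ r < 1 ∧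
    (1 + r * r) * ρ = 2 * r ∧ ph ρ * (1 + r * r) = (1 + r) * (1 - r) := by
  have hc : 0 < ph ρ := ph_pos (by rw [abs_lt]; constructor <;> linarith)
  have hc2 : ph ρ ^ 2 = 1 - ρ ^ 2 := ph_sq (by rw [abs_le]; constructor <;> linarith)
  refine ⟨ρ / (1 + ph ρ), by positivity, ?_, ?_, ?_⟩
  · rw [div_lt_one (by positivity)]; linarith
  · field_simp
    nlinarith
  · field_simp
    nlinarith

lemma r_le1 {ρ r : ℝ} (h : ρ ≤ 13 / 20) (hr1 : r < 1) (hr : (1 + r * r) * ρ = 2 * r) :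
    r ≤ 95 / 256 := by
  by_contra hcon
  push Not at hcon
  have h1 : 2 * r ≤ (1 + r * r) * (13 / 20) := by
    rw [← hr]
    exact mul_le_mul_of_nonneg_left h (by positivity)
  nlinarith [mul_pos (sub_pos.2 hcon) (sub_pos.2 hr1)]

lemma r_le2 {ρ r : ℝ} (h : ρ ≤ 17 / 25) (hr1 : r < 1) (hr : (1 + r * r) * ρ = 2 * r) :
    r ≤ 101 / 256 := by
  by_contra hcon
  push Not at hcon
  have h1 : 2 * r ≤ (1 + r * r) * (17 / 25) := by
    rw [← hr]
    exact mul_le_mul_of_nonneg_left h (by positivity)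
  nlinarith [mul_pos (sub_pos.2 hcon) (sub_pos.2 hr1)]

/-- half-angle parameter, long side -/
lemma par_long {ρ r σ : ℝ} (hr0 : 0 < r) (hr1 : r < 1) (hr : (1 + r * r) * ρ = 2 * r)
    (hσ : |σ| < 1) (h : ρ ≤ σ) : ∃ v : ℝ, 0 ≤ v ∧ v ≤ 1 ∧
    ((1 + r) * (1 + r) + v * v * ((1 - r) * (1 - r))) * (1 - σ) = 2 * (v * v * ((1 - r) * (1 - r))) ∧
    ((1 + r) * (1 + r) + v * v * ((1 - r) * (1 - r))) * (1 + σ) = 2 * ((1 + r) * (1 + r)) ∧
    ph σ * ((1 + r) * (1 + r) + v * v * ((1 - r) * (1 - r))) = 2 * v * ((1 + r) * (1 - r)) := by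
  obtain ⟨s1, s2⟩ := abs_lt.1 hσ
  have hp : 0 < ph σ := ph_pos hσ
  have hp2 : ph σ ^ 2 = 1 - σ ^ 2 := ph_sq hσ.le
  have hr3 : 0 < 1 - r := by linarith
  have hS : 0 < 1 + σ := by linarith
  have e2 : (1 + r) * ph σ / ((1 - r) * (1 + σ)) * ((1 + r) * ph σ / ((1 - r) * (1 + σ))) *
      ((1 - r) * (1 - r)) = (1 + r) * (1 + r) * (1 - σ) / (1 + σ) := by
    field_simp
    rw [hp2]; ring
  refine ⟨(1 + r) * ph σ / ((1 - r) * (1 + σ)), by positivity, ?_, ?_, ?_, ?_⟩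
  · rw [div_le_one (by positivity)]
    have h3 : ((1 + r) * ph σ) ^ 2 ≤ ((1 - r) * (1 + σ)) ^ 2 := by
      have h4 : ((1 + r) * ph σ) ^ 2 = (1 + r) ^ 2 * (1 - σ) * (1 + σ) := by
        rw [mul_pow, hp2]; ring
      have h5 : ((1 - r) * (1 + σ)) ^ 2 = (1 - r) ^ 2 * (1 + σ) * (1 + σ) := by ring
      rw [h4, h5]
      apply mul_le_mul_of_nonneg_right _ hS.le
      have h6 : (1 + r * r) * ρ ≤ (1 + r * r) * σ := mul_le_mul_of_nonneg_left h (by positivity)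
      nlinarith
    exact le_of_sq_le_sq h3 (by positivity)
  · rw [e2]; field_simp; ring
  · rw [e2]; field_simp; ring
  · rw [e2]
    field_simp
    ring

/-- half-angle parameter, short side -/
lemma par_short {ρ r σ : ℝ} (hr0 : 0 < r) (hr1 : r < 1) (hr : (1 + r * r) * ρ = 2 * r)
    (hσ : |σ| < 1) (h : σ ≤ ρ) : ∃ v : ℝ, 0 ≤ v ∧ v ≤ 1 ∧
    ((1 - r) * (1 - r) + v * v * ((1 + r) * (1 + r))) * (1 - σ) = 2 * ((1 - r) * (1 - r)) ∧
    ((1 - r) * (1 - r) + v * v * ((1 + r) * (1 + r))) * (1 + σ) = 2 * (v * v * ((1 + r) * (1 + r))) ∧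
    ph σ * ((1 - r) * (1 - r) + v * v * ((1 + r) * (1 + r))) = 2 * v * ((1 + r) * (1 - r)) := by
  obtain ⟨s1, s2⟩ := abs_lt.1 hσ
  have hp : 0 < ph σ := ph_pos hσ
  have hp2 : ph σ ^ 2 = 1 - σ ^ 2 := ph_sq hσ.le
  have hr3 : 0 < 1 - r := by linarith
  have hS : 0 < 1 - σ := by linarith
  have e2 : (1 - r) * ph σ / ((1 + r) * (1 - σ)) * ((1 - r) * ph σ / ((1 + r) * (1 - σ))) *
      ((1 + r) * (1 + r)) = (1 - r) * (1 - r) * (1 + σ) / (1 - σ) := by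
    field_simp
    rw [hp2]; ring
  refine ⟨(1 - r) * ph σ / ((1 + r) * (1 - σ)), by positivity, ?_, ?_, ?_, ?_⟩
  · rw [div_le_one (by positivity)]
    have h3 : ((1 - r) * ph σ) ^ 2 ≤ ((1 + r) * (1 - σ)) ^ 2 := by
      have h4 : ((1 - r) * ph σ) ^ 2 = (1 - r) ^ 2 * (1 + σ) * (1 - σ) := by
        rw [mul_pow, hp2]; ring
      have h5 : ((1 + r) * (1 - σ)) ^ 2 = (1 + r) ^ 2 * (1 - σ) * (1 - σ) := by ring
      rw [h4, h5]
      apply mul_le_mul_of_nonneg_right _ hS.le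
      have h6 : (1 + r * r) * σ ≤ (1 + r * r) * ρ := mul_le_mul_of_nonneg_left h (by positivity)
      nlinarith
    exact le_of_sq_le_sq h3 (by positivity)
  · rw [e2]; field_simp; ring
  · rw [e2]; field_simp; ring
  · rw [e2]
    field_simp
    ring

lemma fin_ii {W φ φg wg K c κ b : ℝ} (hc : 0 < c) (hκ : 0 ≤ κ) (hφg : 0 ≤ φg)
    (hwg : φg ^ 2 = wg)
    (h : (c * (W * (φ * (κ + b * φ)) + K - b * wg)) ^ 2 ≤ (c * κ) ^ 2 * wg) :
    W * (φ * (κ + b * φ)) + K ≤ φg * (κ + b * φg) := by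
  have h1 : (c * (W * (φ * (κ + b * φ)) + K - b * wg)) ^ 2 ≤ (c * (κ * φg)) ^ 2 := by
    refine h.trans (le_of_eq ?_)
    rw [← hwg]; ring
  have h2 := (le_abs_self _).trans (abs_le_of_sq_le_sq h1 (by positivity))
  have h3 := le_of_mul_le_mul_left h2 hc
  have h4 : φg * (κ + b * φg) = κ * φg + b * wg := by rw [← hwg]; ring
  rw [h4]; linarith

/-- the common algebra of all the edge inequalities -/
lemma alg {W φ K wg c κ b v N B D E F Z u AA Y1 Y2 Y3 : ℝ} (hN : 0 < N) (hD : 0 < D)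
    (hE : 0 < E) (hF : 0 < F)
    (hcN : c * N = u) (hu : u * u = AA) (hφ : φ * D = 2 * v * u) (hw : wg * (N * D) ^ 2 = Y3)
    (hW : W * E * N = Y1) (hK : K * F = Y2 * N) (hκ : c * κ * N ^ 2 = B)
    (hZ : Z = Y1 * (2 * v) * (B * D + 2 * b * v * (AA * N)) * F + Y2 * (N ^ 3 * D ^ 2 * E) -
      b * Y3 * (E * F))
    (h : AA * Z ^ 2 ≤ B ^ 2 * Y3 * (D * (E * F)) ^ 2) :
    (c * (W * (φ * (κ + b * φ)) + K - b * wg)) ^ 2 ≤ (c * κ) ^ 2 * wg := by
  have hL : 0 < (N ^ 3 * D ^ 2 * (E * F)) ^ 2 := by positivity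
  have e1 : c * (W * (φ * (κ + b * φ)) + K - b * wg) * (N ^ 3 * D ^ 2 * (E * F)) = u * Z := by
    have e2 : c * (W * (φ * (κ + b * φ)) + K - b * wg) * (N ^ 3 * D ^ 2 * (E * F)) =
        (W * E * N) * (φ * D) * ((c * κ * N ^ 2) * D + b * (c * N) * (φ * D) * N) * F +
        (c * N) * (K * F) * (N ^ 2 * D ^ 2 * E) -
        b * (c * N) * (wg * (N * D) ^ 2) * (E * F) := by ring
    rw [e2, hW, hφ, hκ, hcN, hK, hw, hZ, ← hu]
    ring
  have e3 : (c * κ) ^ 2 * wg * (N ^ 3 * D ^ 2 * (E * F)) ^ 2 =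
      B ^ 2 * Y3 * (D * (E * F)) ^ 2 := by
    rw [← hκ, ← hw]; ring
  have h4 : (c * (W * (φ * (κ + b * φ)) + K - b * wg)) ^ 2 * (N ^ 3 * D ^ 2 * (E * F)) ^ 2 ≤
      (c * κ) ^ 2 * wg * (N ^ 3 * D ^ 2 * (E * F)) ^ 2 := by
    rw [← mul_pow, e1, e3, mul_pow, sq u, hu]
    exact h
  exact le_of_mul_le_mul_right h4 hL

lemma kineq {lam g wg ws s x al : ℝ} (hws : 0 < ws + s * x) (hwg : 0 < wg + g * (lam * x))
    (hlam : 0 ≤ lam) (h : lam * (ws + s * x) ≤ al * (wg + g * (lam * x))) :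
    (lam * x) ^ 2 / (wg + g * (lam * x)) ≤ lam * al * (x ^ 2 / (ws + s * x)) := by
  rw [div_le_iff₀ hwg]
  have h1 : lam * al * (x ^ 2 / (ws + s * x)) * (wg + g * (lam * x)) =
      lam * (x ^ 2 / (ws + s * x)) * (al * (wg + g * (lam * x))) := by ring
  rw [h1]
  have h2 := mul_le_mul_of_nonneg_left h (show 0 ≤ lam * (x ^ 2 / (ws + s * x)) by positivity)
  refine le_trans (le_of_eq ?_) h2
  have h3 : x ^ 2 / (ws + s * x) * (ws + s * x) = x ^ 2 := div_mul_cancel₀ _ hws.ne'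
  calc (lam * x) ^ 2 = lam * lam * (x ^ 2 / (ws + s * x) * (ws + s * x)) := by rw [h3]; ring
    _ = _ := by ring

/-- an affine function is nonnegative between two points where it is nonnegative (cleared form) -/
lemma aff_nonneg {l0 l1 x p q m n : ℝ} (hp : 0 < p) (hq : 0 < q) (h1 : p * x ≤ m)
    (h2 : -(q * x) ≤ n) (ha : 0 ≤ p * l0 + l1 * m) (hb : 0 ≤ q * l0 - l1 * n) :
    0 ≤ l0 + l1 * x := by
  rcases le_total 0 l1 with h | h
  · have h3 := mul_le_mul_of_nonneg_left h2 h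
    have h4 : 0 ≤ q * (l0 + l1 * x) := by nlinarith
    exact nonneg_of_mul_nonneg_right h4 hq
  · have h3 := mul_le_mul_of_nonpos_left h1 h
    have h4 : 0 ≤ p * (l0 + l1 * x) := by nlinarith
    exact nonneg_of_mul_nonneg_right h4 hp

lemma al_of {num den E k m X : ℝ} (hm : m ≠ 0) (hd : den ≠ 0) (hnum : num * k = m * X)
    (hden : den * k = m * E) : num / den * E = X := by
  have h1 : m * (num / den * E) = m * X := by
    calc m * (num / den * E) = num / den * (m * E) := by ring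
      _ = num / den * den * k := by rw [← hden]; ring
      _ = num * k := by rw [div_mul_cancel₀ _ hd]
      _ = m * X := hnum
  exact mul_left_cancel₀ hm h1

section ii

variable {al ρ b v c κ φ φg wg K u P M N AA V N3 B D Q F Y E Z T : ℝ}

lemma A_long_ii (hN : 0 < N) (hD : 0 < D) (hE : 0 < E) (hF : 0 < F) (hP0 : 0 < P)
    (hM0 : 0 < M) (hc : 0 < c) (hκ0 : 0 ≤ κ) (hφg : 0 ≤ φg) (hNP : N * (1 + ρ) = P)
    (hAA : AA = P * M) (hN3 : N3 = N * N * N)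
    (hcN : c * N = u) (hu : u * u = AA) (hφ : φ * D = 2 * v * u) (hwg : φg ^ 2 = wg)
    (hw : wg * (N * D) ^ 2 = P ^ 2 * M * Q) (hK : K * F = P * N) (hκ : c * κ * N ^ 2 = B)
    (hα : al * E = 2 * V * N * Y)
    (hZ : Z = 2 * (v * V) * Y * (B * D + 2 * b * v * (AA * N)) * (N * F) + N3 * (D * D) * E -
      b * AA * (Q * (E * F)))
    (hT : T = Q * (B * B) * (D * D) * ((E * F) * (E * F)) - P * (Z * Z)) (h : 0 ≤ T) :
    (1 + ρ) / 2 * al * (φ * (κ + b * φ)) + K ≤ φg * (κ + b * φg) := by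
  refine fin_ii (wg := wg) hc hκ0 hφg hwg (alg (Z := P * Z) (Y1 := P * V * Y * N) (Y2 := P)
    (Y3 := P ^ 2 * M * Q) hN hD hE hF hcN hu hφ hw ?_ hK hκ ?_ ?_)
  · calc (1 + ρ) / 2 * al * E * N = (N * (1 + ρ)) / 2 * (al * E) := by ring
      _ = _ := by rw [hNP, hα]; ring
  · rw [hZ, hN3, hAA]; ring
  · rw [hT] at h
    have h2 := mul_le_mul_of_nonneg_left (sub_nonneg.1 h) (show 0 ≤ P ^ 2 * M by positivity)
    rw [hAA]
    refine le_trans (le_of_eq ?_) (h2.trans (le_of_eq ?_)) <;> ring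

lemma A_short_ii (hN : 0 < N) (hD : 0 < D) (hE : 0 < E) (hF : 0 < F) (hP0 : 0 < P)
    (hM0 : 0 < M) (hc : 0 < c) (hκ0 : 0 ≤ κ) (hφg : 0 ≤ φg) (hNP : N * (1 + ρ) = P)
    (hAA : AA = P * M) (hN3 : N3 = N * N * N) (hV : V = v * v)
    (hcN : c * N = u) (hu : u * u = AA) (hφ : φ * D = 2 * v * u) (hwg : φg ^ 2 = wg)
    (hw : wg * (N * D) ^ 2 = V * P ^ 2 * M * Q) (hK : K * F = V * P * N) (hκ : c * κ * N ^ 2 = B)
    (hα : al * E = 2 * Y)
    (hZ : Z = 2 * Y * (B * D + 2 * b * v * (AA * N)) * F + v * (N3 * (D * D) * E -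
      b * AA * (Q * (E * F))))
    (hT : T = Q * (B * B) * (D * D) * ((E * F) * (E * F)) - P * (Z * Z)) (h : 0 ≤ T) :
    (1 + ρ) / 2 * al * (φ * (κ + b * φ)) + K ≤ φg * (κ + b * φg) := by
  refine fin_ii (wg := wg) hc hκ0 hφg hwg (alg (Z := P * v * Z) (Y1 := P * Y) (Y2 := V * P)
    (Y3 := V * P ^ 2 * M * Q) hN hD hE hF hcN hu hφ hw ?_ hK hκ ?_ ?_)
  · calc (1 + ρ) / 2 * al * E * N = (N * (1 + ρ)) / 2 * (al * E) := by ring
      _ = _ := by rw [hNP, hα]; ring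
  · rw [hZ, hN3, hAA, hV]; ring
  · rw [hT] at h
    have h2 := mul_le_mul_of_nonneg_left (sub_nonneg.1 h)
      (show 0 ≤ P ^ 2 * M * v ^ 2 by positivity)
    rw [hAA, hV]
    refine le_trans (le_of_eq ?_) (h2.trans (le_of_eq ?_)) <;> ring

lemma A_short_ii' (hN : 0 < N) (hD : 0 < D) (hF : 0 < F) (hP0 : 0 < P)
    (hM0 : 0 < M) (hc : 0 < c) (hκ0 : 0 ≤ κ) (hφg : 0 ≤ φg) (hNP : N * (1 + ρ) = P)
    (hAA : AA = P * M) (hN3 : N3 = N * N * N) (hV : V = v * v)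
    (hcN : c * N = u) (hu : u * u = AA) (hφ : φ * D = 2 * v * u) (hwg : φg ^ 2 = wg)
    (hw : wg * (N * D) ^ 2 = V * P ^ 2 * M * Q) (hK : K * F = V * P * N) (hκ : c * κ * N ^ 2 = B)
    (hα : al * F = 2 * Y)
    (hZ : Z = 2 * Y * (B * D + 2 * b * v * (AA * N)) + v * (N3 * (D * D) -
      b * AA * (Q * F)))
    (hT : T = Q * (B * B) * (D * D) * (F * F) - P * (Z * Z)) (h : 0 ≤ T) :
    (1 + ρ) / 2 * al * (φ * (κ + b * φ)) + K ≤ φg * (κ + b * φg) := by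
  refine A_short_ii (Z := Z * F) (T := T * (F * F)) hN hD hF hF hP0 hM0 hc hκ0 hφg hNP hAA hN3 hV
    hcN hu hφ hwg hw hK hκ hα ?_ ?_ ?_
  · rw [hZ]; ring
  · rw [hT]; ring
  · positivity

lemma B_long_ii (hN : 0 < N) (hD : 0 < D) (hE : 0 < E) (hF : 0 < F) (hP0 : 0 < P)
    (hM0 : 0 < M) (hc : 0 < c) (hκ0 : 0 ≤ κ) (hφg : 0 ≤ φg) (hNM : N * (1 - ρ) = M)
    (hAA : AA = P * M) (hN3 : N3 = N * N * N)
    (hcN : c * N = u) (hu : u * u = AA) (hφ : φ * D = 2 * v * u) (hwg : φg ^ 2 = wg)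
    (hw : wg * (N * D) ^ 2 = AA * Q) (hK : K * F = P * N) (hκ : c * κ * N ^ 2 = B)
    (hα : al * E = 2 * V * N * Y)
    (hZ : Z = 2 * (v * V) * M * Y * (B * D + 2 * b * v * (AA * N)) * (N * F) +
      P * N3 * (D * D) * E - b * AA * (Q * (E * F)))
    (hT : T = Q * (B * B) * (D * D) * ((E * F) * (E * F)) - Z * Z) (h : 0 ≤ T) :
    (1 - ρ) / 2 * al * (φ * (κ + b * φ)) + K ≤ φg * (κ + b * φg) := by
  refine fin_ii (wg := wg) hc hκ0 hφg hwg (alg (Z := Z) (Y1 := M * V * Y * N) (Y2 := P)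
    (Y3 := AA * Q) hN hD hE hF hcN hu hφ hw ?_ hK hκ ?_ ?_)
  · calc (1 - ρ) / 2 * al * E * N = (N * (1 - ρ)) / 2 * (al * E) := by ring
      _ = _ := by rw [hNM, hα]; ring
  · rw [hZ, hN3]; ring
  · rw [hT] at h
    have hAA0 : 0 ≤ AA := by rw [hAA]; positivity
    have h2 := mul_le_mul_of_nonneg_left (sub_nonneg.1 h) hAA0
    refine le_trans (le_of_eq ?_) (h2.trans (le_of_eq ?_)) <;> ring

lemma B_short_ii (hN : 0 < N) (hD : 0 < D) (hE : 0 < E) (hF : 0 < F) (hP0 : 0 < P)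
    (hM0 : 0 < M) (hc : 0 < c) (hκ0 : 0 ≤ κ) (hφg : 0 ≤ φg) (hNM : N * (1 - ρ) = M)
    (hAA : AA = P * M) (hN3 : N3 = N * N * N) (hV : V = v * v)
    (hcN : c * N = u) (hu : u * u = AA) (hφ : φ * D = 2 * v * u) (hwg : φg ^ 2 = wg)
    (hw : wg * (N * D) ^ 2 = V * AA * Q) (hK : K * F = V * P * N) (hκ : c * κ * N ^ 2 = B)
    (hα : al * E = 2 * Y)
    (hZ : Z = 2 * M * Y * (B * D + 2 * b * v * (AA * N)) * F +
      v * P * N3 * (D * D) * E - b * v * AA * (Q * (E * F)))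
    (hT : T = Q * (B * B) * (D * D) * ((E * F) * (E * F)) - Z * Z) (h : 0 ≤ T) :
    (1 - ρ) / 2 * al * (φ * (κ + b * φ)) + K ≤ φg * (κ + b * φg) := by
  refine fin_ii (wg := wg) hc hκ0 hφg hwg (alg (Z := v * Z) (Y1 := M * Y) (Y2 := V * P)
    (Y3 := V * AA * Q) hN hD hE hF hcN hu hφ hw ?_ hK hκ ?_ ?_)
  · calc (1 - ρ) / 2 * al * E * N = (N * (1 - ρ)) / 2 * (al * E) := by ring
      _ = _ := by rw [hNM, hα]; ring
  · rw [hZ, hN3, hV]; ring
  · rw [hT] at h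
    have hAA0 : 0 ≤ AA * v ^ 2 := by rw [hAA]; positivity
    have h2 := mul_le_mul_of_nonneg_left (sub_nonneg.1 h) hAA0
    rw [hV]
    refine le_trans (le_of_eq ?_) (h2.trans (le_of_eq ?_)) <;> ring

end ii

/-- the region of `(ρ,b)` -/
def Reg (ρ b : ℝ) : Prop :=
  (ρ ≤ 13 / 20 ∧ 2 / 5 ≤ b ∧ b ≤ 7 / 10) ∨ (ρ ≤ 17 / 25 ∧ 11 / 20 ≤ b ∧ b ≤ 7 / 10)

lemma Reg.b {ρ b : ℝ} (h : Reg ρ b) : 2 / 5 ≤ b ∧ b ≤ 7 / 10 := by
  rcases h with h | h
  · exact ⟨h.2.1, h.2.2⟩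
  · exact ⟨by linarith [h.2.1], h.2.2⟩

lemma Reg.rho {ρ b : ℝ} (h : Reg ρ b) : ρ ≤ 17 / 25 := by
  rcases h with h | h
  · linarith [h.1]
  · exact h.1

lemma stepA {ρ s b al g : ℝ} (h0 : 0 < ρ) (h1 : ρ < 1) (hs : |s| < 1) (hal : 0 ≤ al)
    (hg : g = (1 + ρ) / 2 * s + (1 - ρ) / 2 * (-1))
    (hbox : ∀ x, FX ρ s x → -((1 + ρ) * x) ≤ ρ * (1 + s) →
      0 ≤ al * (1 - g ^ 2) - (1 + ρ) / 2 * (1 - s ^ 2) +
        (al * (g * ((1 + ρ) / 2)) - (1 + ρ) / 2 * s) * x)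
    (hii : (1 + ρ) / 2 * al * (ph s * ((1 / ph ρ - b * ph ρ) + b * ph s)) +
      ((s + 1) / 2) ^ 2 / (1 - g ^ 2 + g * (ρ * (s + 1) / 2)) ≤
      ph g * ((1 / ph ρ - b * ph ρ) + b * ph g)) :
    PairStep ρ s (-1) (fun g => ρ ^ 2 / ph ρ + ρ ^ 2 * b * (ph g - ph ρ)) := by
  obtain ⟨s1, s2⟩ := abs_lt.1 hs
  have hlam : 0 < (1 + ρ) / 2 := by linarith
  have hmu : 0 < (1 - ρ) / 2 := by linarith
  have hm1 : |(-1 : ℝ)| ≤ 1 := by rw [abs_neg, abs_one]
  have hph1 : ph (-1) = 0 := by unfold ph; norm_num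
  have hg1 : |g| < 1 := by
    rw [hg, abs_lt]
    constructor <;> nlinarith
  refine pairStep_of_K' (al := al) (be := 0) h0 h1 hs.le hm1 hal le_rfl ?_ ?_ ?_
  · rw [← hg]; exact ph_pos hg1
  · intro x y hx hy hxy
    have hy0 : y = 0 := hy.eq_zero h0 h1 hph1 hm1
    subst hy0
    rw [← hg]
    have hxg : FX ρ g ((1 + ρ) / 2 * x + (1 - ρ) / 2 * 0) := by
      rw [hg]; exact FX.avg hx hy hlam.le hmu.le (by ring)
    have pDg := D_pos h0 h1 hg1 hxg.2.1 hxg.2.2.2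
    have pDs := D_pos h0 h1 hs hx.2.1 hx.2.2.2
    have e0 : (1 + ρ) / 2 * x + (1 - ρ) / 2 * 0 = (1 + ρ) / 2 * x := by ring
    rw [e0] at pDg hxy ⊢
    have h5 : |s - -1| = 1 + s := by rw [abs_of_pos (by linarith)]; ring
    rw [h5, abs_le] at hxy
    have hb := hbox x hx (by nlinarith [hxy.1])
    have h6 := kineq (lam := (1 + ρ) / 2) (g := g) (wg := 1 - g ^ 2) (ws := 1 - s ^ 2) (s := s)
      (x := x) (al := al) pDs pDg hlam.le (by nlinarith)
    refine h6.trans (le_of_eq ?_)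
    simp
  · rw [← hg, hph1]
    have e5 : s - -1 = s + 1 := by ring
    rw [e5]
    refine le_trans (le_of_eq ?_) hii
    ring

lemma stepB {ρ t b be g : ℝ} (h0 : 0 < ρ) (h1 : ρ < 1) (ht : |t| < 1) (hbe : 0 ≤ be)
    (hg : g = (1 + ρ) / 2 * 1 + (1 - ρ) / 2 * t)
    (hbox : ∀ y, FX ρ t y →
      0 ≤ be * (1 - g ^ 2) - (1 - ρ) / 2 * (1 - t ^ 2) +
        (be * (g * ((1 - ρ) / 2)) - (1 - ρ) / 2 * t) * y)
    (hii : (1 - ρ) / 2 * be * (ph t * ((1 / ph ρ - b * ph ρ) + b * ph t)) +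
      ((1 - t) / 2) ^ 2 / (1 - g ^ 2 + g * (ρ * (1 - t) / 2)) ≤
      ph g * ((1 / ph ρ - b * ph ρ) + b * ph g)) :
    PairStep ρ 1 t (fun g => ρ ^ 2 / ph ρ + ρ ^ 2 * b * (ph g - ph ρ)) := by
  obtain ⟨s1, s2⟩ := abs_lt.1 ht
  have hlam : 0 < (1 + ρ) / 2 := by linarith
  have hmu : 0 < (1 - ρ) / 2 := by linarith
  have hm1 : |(1 : ℝ)| ≤ 1 := by rw [abs_one]
  have hph1 : ph 1 = 0 := by unfold ph; norm_num
  have hg1 : |g| < 1 := by
    rw [hg, abs_lt]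
    constructor <;> nlinarith
  refine pairStep_of_K' (al := 0) (be := be) h0 h1 hm1 ht.le le_rfl hbe ?_ ?_ ?_
  · rw [← hg]; exact ph_pos hg1
  · intro x y hx hy hxy
    have hx0 : x = 0 := hx.eq_zero h0 h1 hph1 hm1
    subst hx0
    rw [← hg]
    have hxg : FX ρ g ((1 + ρ) / 2 * 0 + (1 - ρ) / 2 * y) := by
      rw [hg]; exact FX.avg hx hy hlam.le hmu.le (by ring)
    have pDg := D_pos h0 h1 hg1 hxg.2.1 hxg.2.2.2
    have pDs := D_pos h0 h1 ht hy.2.1 hy.2.2.2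
    have e0 : (1 + ρ) / 2 * 0 + (1 - ρ) / 2 * y = (1 - ρ) / 2 * y := by ring
    rw [e0] at pDg ⊢
    have hb := hbox y hy
    have h6 := kineq (lam := (1 - ρ) / 2) (g := g) (wg := 1 - g ^ 2) (ws := 1 - t ^ 2) (s := t)
      (x := y) (al := be) pDs pDg hmu.le (by nlinarith)
    refine h6.trans (le_of_eq ?_)
    simp
  · rw [← hg, hph1]
    refine le_trans (le_of_eq ?_) hii
    ring

lemma Kval {a h k F : ℝ} (ha : 0 < a) (hh : 0 < h) (hF : h * k = F) :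
    (a / 2) ^ 2 / (a * h / 2) * F = a * k / 2 := by
  subst hF
  field_simp

lemma kappa_eq {c b N P M AA B r : ℝ} (hc : 0 < c) (hc2 : c * N = (1 + r) * (1 - r))
    (hP : P = (1 + r) * (1 + r)) (hM : M = (1 - r) * (1 - r)) (hAA : AA = P * M)
    (hB : B = N * N - b * AA) : c * (1 / c - b * c) * N ^ 2 = B := by
  have h1 : c * (1 / c - b * c) = 1 - b * c ^ 2 := by field_simp
  have h2 : (c * N) ^ 2 = AA := by rw [hc2, hAA, hP, hM]; ring
  rw [h1, hB, ← h2]; ring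

lemma kappa_nonneg {ρ b : ℝ} (h0 : 0 < ρ) (h1 : ρ < 1) (hb : b ≤ 7 / 10) :
    0 ≤ 1 / ph ρ - b * ph ρ := by
  have hc : 0 < ph ρ := ph_pos (by rw [abs_lt]; constructor <;> linarith)
  have hc2 : ph ρ ^ 2 = 1 - ρ ^ 2 := ph_sq (by rw [abs_le]; constructor <;> linarith)
  have h3 : 1 / ph ρ - b * ph ρ = (1 - b * ph ρ ^ 2) / ph ρ := by field_simp
  rw [h3, hc2]
  apply div_nonneg _ hc.le
  have : b * (1 - ρ ^ 2) ≤ 7 / 10 * 1 := by
    apply mul_le_mul hb _ _ (by norm_num)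
    · nlinarith
    · nlinarith
  linarith

end Crest.Agent.R307.Edge
end

-- ▼ part R307/Edge/A0x
section

set_option autoImplicit false

namespace Crest.Agent.R307.Edge.A0

open Crest.Agent.KB

def vN : Ex := (.X 0 1)
def rN : Ex := (.X 1 1)
def bN : Ex := (.X 2 1)
def PN : Ex := (.mul (.add (.mul (.W 1 1) (.c (1))) rN) (.add (.mul (.W 1 1) (.c (1))) rN))
def MN : Ex := (.mul (.sub (.mul (.W 1 1) (.c (1))) rN) (.sub (.mul (.W 1 1) (.c (1))) rN))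
def NN : Ex := (.add (.mul (.W 1 2) (.c (1))) (.mul rN rN))
def AAN : Ex := (.mul PN MN)
def VN : Ex := (.mul vN vN)
def N3N : Ex := (.mul (.mul NN NN) NN)
def BN : Ex := (.sub (.mul (.W 2 1) (.mul NN NN)) (.mul bN AAN))
def DN : Ex := (.add (.mul (.W 0 2) PN) (.mul VN MN))
def QN : Ex := (.add (.mul PN (.add (.mul (.W 0 2) (.c (1))) VN)) (.mul VN MN))
def FN : Ex := (.add (.mul (.W 1 1) (.mul (.mul (.c (2)) rN) DN)) (.mul MN QN))
def YN : Ex := (.sub (.mul (.W 0 2) (.mul NN PN)) (.mul (.W 1 1) (.mul rN DN)))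
def EN : Ex := (.add (.mul (.W 1 1) (.mul (.mul (.mul (.mul (.c (2)) rN) VN) NN) DN)) (.mul (.mul QN MN) (.sub (.mul (.W 0 2) PN) (.mul (.W 1 1) (.mul (.mul (.c (2)) rN) VN)))))
def ZN : Ex := (.sub (.add (.mul (.mul (.mul (.mul (.c (2)) (.mul vN VN)) YN) (.add (.mul BN DN) (.mul (.W 0 1) (.mul (.mul (.mul (.c (2)) bN) vN) (.mul AAN NN))))) (.mul NN FN)) (.mul (.W 2 1) (.mul (.W 0 1) (.mul (.mul N3N (.mul DN DN)) EN)))) (.mul (.W 0 1) (.mul (.mul bN AAN) (.mul QN (.mul EN FN)))))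
def TN : Ex := (.sub (.mul (.mul (.mul QN (.mul BN BN)) (.mul DN DN)) (.mul (.mul EN FN) (.mul EN FN))) (.mul PN (.mul ZN ZN)))

set_option maxRecDepth 100000 in
theorem run_ok : run 3 516 8 [19, 35, 3] [512, 190, 360] [[TN]]
    (.leaf 0) [(0, 256), (0, 95), (102, 180)] = true := by
  decide +kernel

end Crest.Agent.R307.Edge.A0
end

-- ▼ part R307/Edge/A0
section

set_option autoImplicit false
set_option linter.unusedSimpArgs false
set_option linter.unusedTactic false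
set_option linter.unusedVariables false

namespace Crest.Agent.R307.Edge.A0

open Crest.Agent.KB

/-- the point -/
def xv (x0 x1 x2 : ℝ) : ℕ → ℝ
  | 0 => x0
  | 1 => x1
  | _ => x2

theorem core (x0 x1 x2 : ℝ) (hx0 : (0 : ℝ) / 256 ≤ x0) (hx0' : x0 ≤ (256 : ℝ) / 256) (hx1 : (0 : ℝ) / 256 ≤ x1) (hx1' : x1 ≤ (95 : ℝ) / 256) (hx2 : (102 : ℝ) / 256 ≤ x2) (hx2' : x2 ≤ (180 : ℝ) / 256) :
    (0 ≤ TN.val (xv x0 x1 x2) (fun _ => 1)) := by
  obtain ⟨cl, hcl, h⟩ := run_sound _ _ _ _ _ _ _ _ run_ok (xv x0 x1 x2) (by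
    intro i hi
    interval_cases i <;> norm_num [ba, bb, xv] <;> constructor <;> linarith)
  simp only [List.mem_cons, List.not_mem_nil, or_false] at hcl
  subst hcl
  exact h TN (by simp)

theorem vals (x0 x1 x2 v r b P M N AA V N3 B D Q F Y E Z T : ℝ)
    (hv : x0 = 1 * v)
    (hr : x1 = 1 * r)
    (hb : x2 = 1 * b)
    (hP : P = (((1 : ℝ) + r) * ((1 : ℝ) + r)))
    (hM : M = (((1 : ℝ) - r) * ((1 : ℝ) - r)))
    (hN : N = ((1 : ℝ) + (r * r)))
    (hAA : AA = (P * M))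
    (hV : V = (v * v))
    (hN3 : N3 = ((N * N) * N))
    (hB : B = ((N * N) - (b * AA)))
    (hD : D = (P + (V * M)))
    (hQ : Q = ((P * ((1 : ℝ) + V)) + (V * M)))
    (hF : F = ((((2 : ℝ) * r) * D) + (M * Q)))
    (hY : Y = ((N * P) - (r * D)))
    (hE : E = ((((((2 : ℝ) * r) * V) * N) * D) + ((Q * M) * (P - (((2 : ℝ) * r) * V)))))
    (hZ : Z = (((((((2 : ℝ) * (v * V)) * Y) * ((B * D) + ((((2 : ℝ) * b) * v) * (AA * N)))) * (N * F)) + ((N3 * (D * D)) * E)) - ((b * AA) * (Q * (E * F)))))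
    (hT : T = ((((Q * (B * B)) * (D * D)) * ((E * F) * (E * F))) - (P * (Z * Z))))
    :
    TN.val (xv x0 x1 x2) (fun _ => 1) = 1 * T := by
  set X := (xv x0 x1 x2) with hX
  have e0 : X 0 = x0 := rfl
  have e1 : X 1 = x1 := rfl
  have e2 : X 2 = x2 := rfl
  have vvN : vN.val X (fun _ => 1) = 1 * v := by
    simp only [vN, Ex.val, e0, e1, e2]; rw [← hv]; push_cast; ring
  have vrN : rN.val X (fun _ => 1) = 1 * r := by
    simp only [rN, Ex.val, e0, e1, e2]; rw [← hr]; push_cast; ring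
  have vbN : bN.val X (fun _ => 1) = 1 * b := by
    simp only [bN, Ex.val, e0, e1, e2]; rw [← hb]; push_cast; ring
  clear_value X
  have vPN : PN.val X (fun _ => 1) = 1 * P := by
    simp only [PN, Ex.val, vrN]; rw [hP]; push_cast; ring
  have vMN : MN.val X (fun _ => 1) = 1 * M := by
    simp only [MN, Ex.val, vrN]; rw [hM]; push_cast; ring
  have vNN : NN.val X (fun _ => 1) = 1 * N := by
    simp only [NN, Ex.val, vrN]; rw [hN]; push_cast; ring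
  have vAAN : AAN.val X (fun _ => 1) = 1 * AA := by
    simp only [AAN, Ex.val, vPN, vMN]; rw [hAA]; push_cast; ring
  have vVN : VN.val X (fun _ => 1) = 1 * V := by
    simp only [VN, Ex.val, vvN]; rw [hV]; push_cast; ring
  have vN3N : N3N.val X (fun _ => 1) = 1 * N3 := by
    simp only [N3N, Ex.val, vNN]; rw [hN3]; push_cast; ring
  have vBN : BN.val X (fun _ => 1) = 1 * B := by
    simp only [BN, Ex.val, vNN, vbN, vAAN]; rw [hB]; push_cast; ring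
  have vDN : DN.val X (fun _ => 1) = 1 * D := by
    simp only [DN, Ex.val, vPN, vVN, vMN]; rw [hD]; push_cast; ring
  have vQN : QN.val X (fun _ => 1) = 1 * Q := by
    simp only [QN, Ex.val, vPN, vVN, vMN]; rw [hQ]; push_cast; ring
  have vFN : FN.val X (fun _ => 1) = 1 * F := by
    simp only [FN, Ex.val, vrN, vDN, vMN, vQN]; rw [hF]; push_cast; ring
  have vYN : YN.val X (fun _ => 1) = 1 * Y := by
    simp only [YN, Ex.val, vNN, vPN, vrN, vDN]; rw [hY]; push_cast; ring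
  have vEN : EN.val X (fun _ => 1) = 1 * E := by
    simp only [EN, Ex.val, vrN, vVN, vNN, vDN, vQN, vMN, vPN]; rw [hE]; push_cast; ring
  have vZN : ZN.val X (fun _ => 1) = 1 * Z := by
    simp only [ZN, Ex.val, vvN, vVN, vYN, vBN, vDN, vbN, vAAN, vNN, vFN, vN3N, vEN, vQN]; rw [hZ]; push_cast; ring
  have vTN : TN.val X (fun _ => 1) = 1 * T := by
    simp only [TN, Ex.val, vQN, vBN, vDN, vEN, vFN, vPN, vZN]; rw [hT]; push_cast; ring
  exact vTN

theorem main (x0 x1 x2 v r b P M N AA V N3 B D Q F Y E Z T : ℝ) (hx0 : (0 : ℝ) / 256 ≤ x0) (hx0' : x0 ≤ (256 : ℝ) / 256) (hx1 : (0 : ℝ) / 256 ≤ x1) (hx1' : x1 ≤ (95 : ℝ) / 256) (hx2 : (102 : ℝ) / 256 ≤ x2) (hx2' : x2 ≤ (180 : ℝ) / 256)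
    (hv : x0 = 1 * v)
    (hr : x1 = 1 * r)
    (hb : x2 = 1 * b)
    (hP : P = (((1 : ℝ) + r) * ((1 : ℝ) + r)))
    (hM : M = (((1 : ℝ) - r) * ((1 : ℝ) - r)))
    (hN : N = ((1 : ℝ) + (r * r)))
    (hAA : AA = (P * M))
    (hV : V = (v * v))
    (hN3 : N3 = ((N * N) * N))
    (hB : B = ((N * N) - (b * AA)))
    (hD : D = (P + (V * M)))
    (hQ : Q = ((P * ((1 : ℝ) + V)) + (V * M)))
    (hF : F = ((((2 : ℝ) * r) * D) + (M * Q)))
    (hY : Y = ((N * P) - (r * D)))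
    (hE : E = ((((((2 : ℝ) * r) * V) * N) * D) + ((Q * M) * (P - (((2 : ℝ) * r) * V)))))
    (hZ : Z = (((((((2 : ℝ) * (v * V)) * Y) * ((B * D) + ((((2 : ℝ) * b) * v) * (AA * N)))) * (N * F)) + ((N3 * (D * D)) * E)) - ((b * AA) * (Q * (E * F)))))
    (hT : T = ((((Q * (B * B)) * (D * D)) * ((E * F) * (E * F))) - (P * (Z * Z))))
    :
    (0 ≤ T) := by
  have hv := vals x0 x1 x2 v r b P M N AA V N3 B D Q F Y E Z T hv hr hb hP hM hN hAA hV hN3 hB hD hQ hF hY hE hZ hT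
  have hc := core x0 x1 x2 hx0 hx0' hx1 hx1' hx2 hx2'
  have w0 := hv
  simp only [w0] at hc
  have a0 := hc
  exact nonneg_of_mul_nonneg_right a0 (by positivity)

end Crest.Agent.R307.Edge.A0
private theorem rz_8e9c4a5409 : type_of% @_root_.Crest.Agent.R307.Edge.A0.xv.eq_1 := @_root_.Crest.Agent.R307.Edge.A0.xv.eq_1 -- L13
end

-- ▼ part R307/Edge/A0bx
section

set_option autoImplicit false

namespace Crest.Agent.R307.Edge.A0b

open Crest.Agent.KB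

def vN : Ex := (.X 0 1)
def rN : Ex := (.X 1 1)
def bN : Ex := (.X 2 1)
def PN : Ex := (.mul (.add (.mul (.W 1 1) (.c (1))) rN) (.add (.mul (.W 1 1) (.c (1))) rN))
def MN : Ex := (.mul (.sub (.mul (.W 1 1) (.c (1))) rN) (.sub (.mul (.W 1 1) (.c (1))) rN))
def NN : Ex := (.add (.mul (.W 1 2) (.c (1))) (.mul rN rN))
def AAN : Ex := (.mul PN MN)
def VN : Ex := (.mul vN vN)
def N3N : Ex := (.mul (.mul NN NN) NN)
def BN : Ex := (.sub (.mul (.W 2 1) (.mul NN NN)) (.mul bN AAN))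
def DN : Ex := (.add (.mul (.W 0 2) PN) (.mul VN MN))
def QN : Ex := (.add (.mul PN (.add (.mul (.W 0 2) (.c (1))) VN)) (.mul VN MN))
def FN : Ex := (.add (.mul (.W 1 1) (.mul (.mul (.c (2)) rN) DN)) (.mul MN QN))
def YN : Ex := (.sub (.mul (.W 0 2) (.mul NN PN)) (.mul (.W 1 1) (.mul rN DN)))
def EN : Ex := (.add (.mul (.W 1 1) (.mul (.mul (.mul (.mul (.c (2)) rN) VN) NN) DN)) (.mul (.mul QN MN) (.sub (.mul (.W 0 2) PN) (.mul (.W 1 1) (.mul (.mul (.c (2)) rN) VN)))))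
def ZN : Ex := (.sub (.add (.mul (.mul (.mul (.mul (.c (2)) (.mul vN VN)) YN) (.add (.mul BN DN) (.mul (.W 0 1) (.mul (.mul (.mul (.c (2)) bN) vN) (.mul AAN NN))))) (.mul NN FN)) (.mul (.W 2 1) (.mul (.W 0 1) (.mul (.mul N3N (.mul DN DN)) EN)))) (.mul (.W 0 1) (.mul (.mul bN AAN) (.mul QN (.mul EN FN)))))
def TN : Ex := (.sub (.mul (.mul (.mul QN (.mul BN BN)) (.mul DN DN)) (.mul (.mul EN FN) (.mul EN FN))) (.mul PN (.mul ZN ZN)))

set_option maxRecDepth 100000 in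
theorem run_ok : run 3 517 8 [19, 35, 3] [512, 202, 360] [[TN]]
    (.leaf 0) [(0, 256), (0, 101), (139, 180)] = true := by
  decide +kernel

end Crest.Agent.R307.Edge.A0b
end

-- ▼ part R307/Edge/A0b
section

set_option autoImplicit false
set_option linter.unusedSimpArgs false
set_option linter.unusedTactic false
set_option linter.unusedVariables false

namespace Crest.Agent.R307.Edge.A0b

open Crest.Agent.KB

/-- the point -/
def xv (x0 x1 x2 : ℝ) : ℕ → ℝ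
  | 0 => x0
  | 1 => x1
  | _ => x2

theorem core (x0 x1 x2 : ℝ) (hx0 : (0 : ℝ) / 256 ≤ x0) (hx0' : x0 ≤ (256 : ℝ) / 256) (hx1 : (0 : ℝ) / 256 ≤ x1) (hx1' : x1 ≤ (101 : ℝ) / 256) (hx2 : (139 : ℝ) / 256 ≤ x2) (hx2' : x2 ≤ (180 : ℝ) / 256) :
    (0 ≤ TN.val (xv x0 x1 x2) (fun _ => 1)) := by
  obtain ⟨cl, hcl, h⟩ := run_sound _ _ _ _ _ _ _ _ run_ok (xv x0 x1 x2) (by
    intro i hi
    interval_cases i <;> norm_num [ba, bb, xv] <;> constructor <;> linarith)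
  simp only [List.mem_cons, List.not_mem_nil, or_false] at hcl
  subst hcl
  exact h TN (by simp)

theorem vals (x0 x1 x2 v r b P M N AA V N3 B D Q F Y E Z T : ℝ)
    (hv : x0 = 1 * v)
    (hr : x1 = 1 * r)
    (hb : x2 = 1 * b)
    (hP : P = (((1 : ℝ) + r) * ((1 : ℝ) + r)))
    (hM : M = (((1 : ℝ) - r) * ((1 : ℝ) - r)))
    (hN : N = ((1 : ℝ) + (r * r)))
    (hAA : AA = (P * M))
    (hV : V = (v * v))
    (hN3 : N3 = ((N * N) * N))
    (hB : B = ((N * N) - (b * AA)))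
    (hD : D = (P + (V * M)))
    (hQ : Q = ((P * ((1 : ℝ) + V)) + (V * M)))
    (hF : F = ((((2 : ℝ) * r) * D) + (M * Q)))
    (hY : Y = ((N * P) - (r * D)))
    (hE : E = ((((((2 : ℝ) * r) * V) * N) * D) + ((Q * M) * (P - (((2 : ℝ) * r) * V)))))
    (hZ : Z = (((((((2 : ℝ) * (v * V)) * Y) * ((B * D) + ((((2 : ℝ) * b) * v) * (AA * N)))) * (N * F)) + ((N3 * (D * D)) * E)) - ((b * AA) * (Q * (E * F)))))
    (hT : T = ((((Q * (B * B)) * (D * D)) * ((E * F) * (E * F))) - (P * (Z * Z))))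
    :
    TN.val (xv x0 x1 x2) (fun _ => 1) = 1 * T := by
  set X := (xv x0 x1 x2) with hX
  have e0 : X 0 = x0 := rfl
  have e1 : X 1 = x1 := rfl
  have e2 : X 2 = x2 := rfl
  have vvN : vN.val X (fun _ => 1) = 1 * v := by
    simp only [vN, Ex.val, e0, e1, e2]; rw [← hv]; push_cast; ring
  have vrN : rN.val X (fun _ => 1) = 1 * r := by
    simp only [rN, Ex.val, e0, e1, e2]; rw [← hr]; push_cast; ring
  have vbN : bN.val X (fun _ => 1) = 1 * b := by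
    simp only [bN, Ex.val, e0, e1, e2]; rw [← hb]; push_cast; ring
  clear_value X
  have vPN : PN.val X (fun _ => 1) = 1 * P := by
    simp only [PN, Ex.val, vrN]; rw [hP]; push_cast; ring
  have vMN : MN.val X (fun _ => 1) = 1 * M := by
    simp only [MN, Ex.val, vrN]; rw [hM]; push_cast; ring
  have vNN : NN.val X (fun _ => 1) = 1 * N := by
    simp only [NN, Ex.val, vrN]; rw [hN]; push_cast; ring
  have vAAN : AAN.val X (fun _ => 1) = 1 * AA := by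
    simp only [AAN, Ex.val, vPN, vMN]; rw [hAA]; push_cast; ring
  have vVN : VN.val X (fun _ => 1) = 1 * V := by
    simp only [VN, Ex.val, vvN]; rw [hV]; push_cast; ring
  have vN3N : N3N.val X (fun _ => 1) = 1 * N3 := by
    simp only [N3N, Ex.val, vNN]; rw [hN3]; push_cast; ring
  have vBN : BN.val X (fun _ => 1) = 1 * B := by
    simp only [BN, Ex.val, vNN, vbN, vAAN]; rw [hB]; push_cast; ring
  have vDN : DN.val X (fun _ => 1) = 1 * D := by
    simp only [DN, Ex.val, vPN, vVN, vMN]; rw [hD]; push_cast; ring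
  have vQN : QN.val X (fun _ => 1) = 1 * Q := by
    simp only [QN, Ex.val, vPN, vVN, vMN]; rw [hQ]; push_cast; ring
  have vFN : FN.val X (fun _ => 1) = 1 * F := by
    simp only [FN, Ex.val, vrN, vDN, vMN, vQN]; rw [hF]; push_cast; ring
  have vYN : YN.val X (fun _ => 1) = 1 * Y := by
    simp only [YN, Ex.val, vNN, vPN, vrN, vDN]; rw [hY]; push_cast; ring
  have vEN : EN.val X (fun _ => 1) = 1 * E := by
    simp only [EN, Ex.val, vrN, vVN, vNN, vDN, vQN, vMN, vPN]; rw [hE]; push_cast; ring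
  have vZN : ZN.val X (fun _ => 1) = 1 * Z := by
    simp only [ZN, Ex.val, vvN, vVN, vYN, vBN, vDN, vbN, vAAN, vNN, vFN, vN3N, vEN, vQN]; rw [hZ]; push_cast; ring
  have vTN : TN.val X (fun _ => 1) = 1 * T := by
    simp only [TN, Ex.val, vQN, vBN, vDN, vEN, vFN, vPN, vZN]; rw [hT]; push_cast; ring
  exact vTN

theorem main (x0 x1 x2 v r b P M N AA V N3 B D Q F Y E Z T : ℝ) (hx0 : (0 : ℝ) / 256 ≤ x0) (hx0' : x0 ≤ (256 : ℝ) / 256) (hx1 : (0 : ℝ) / 256 ≤ x1) (hx1' : x1 ≤ (101 : ℝ) / 256) (hx2 : (139 : ℝ) / 256 ≤ x2) (hx2' : x2 ≤ (180 : ℝ) / 256)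
    (hv : x0 = 1 * v)
    (hr : x1 = 1 * r)
    (hb : x2 = 1 * b)
    (hP : P = (((1 : ℝ) + r) * ((1 : ℝ) + r)))
    (hM : M = (((1 : ℝ) - r) * ((1 : ℝ) - r)))
    (hN : N = ((1 : ℝ) + (r * r)))
    (hAA : AA = (P * M))
    (hV : V = (v * v))
    (hN3 : N3 = ((N * N) * N))
    (hB : B = ((N * N) - (b * AA)))
    (hD : D = (P + (V * M)))
    (hQ : Q = ((P * ((1 : ℝ) + V)) + (V * M)))
    (hF : F = ((((2 : ℝ) * r) * D) + (M * Q)))
    (hY : Y = ((N * P) - (r * D)))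
    (hE : E = ((((((2 : ℝ) * r) * V) * N) * D) + ((Q * M) * (P - (((2 : ℝ) * r) * V)))))
    (hZ : Z = (((((((2 : ℝ) * (v * V)) * Y) * ((B * D) + ((((2 : ℝ) * b) * v) * (AA * N)))) * (N * F)) + ((N3 * (D * D)) * E)) - ((b * AA) * (Q * (E * F)))))
    (hT : T = ((((Q * (B * B)) * (D * D)) * ((E * F) * (E * F))) - (P * (Z * Z))))
    :
    (0 ≤ T) := by
  have hv := vals x0 x1 x2 v r b P M N AA V N3 B D Q F Y E Z T hv hr hb hP hM hN hAA hV hN3 hB hD hQ hF hY hE hZ hT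
  have hc := core x0 x1 x2 hx0 hx0' hx1 hx1' hx2 hx2'
  have w0 := hv
  simp only [w0] at hc
  have a0 := hc
  exact nonneg_of_mul_nonneg_right a0 (by positivity)

end Crest.Agent.R307.Edge.A0b
private theorem rz_a8af2f192c : type_of% @_root_.Crest.Agent.R307.Edge.A0b.xv.eq_1 := @_root_.Crest.Agent.R307.Edge.A0b.xv.eq_1 -- L13
end

-- ▼ part R307/Edge/A1x
section

set_option autoImplicit false

namespace Crest.Agent.R307.Edge.A1

open Crest.Agent.KB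

def vN : Ex := (.X 0 1)
def rN : Ex := (.X 1 1)
def bN : Ex := (.X 2 1)
def PN : Ex := (.mul (.add (.mul (.W 1 1) (.c (1))) rN) (.add (.mul (.W 1 1) (.c (1))) rN))
def MN : Ex := (.mul (.sub (.mul (.W 1 1) (.c (1))) rN) (.sub (.mul (.W 1 1) (.c (1))) rN))
def NN : Ex := (.add (.mul (.W 1 2) (.c (1))) (.mul rN rN))
def AAN : Ex := (.mul PN MN)
def VN : Ex := (.mul vN vN)
def N3N : Ex := (.mul (.mul NN NN) NN)
def BN : Ex := (.sub (.mul (.W 2 1) (.mul NN NN)) (.mul bN AAN))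
def DN : Ex := (.add (.mul (.W 0 2) MN) (.mul VN PN))
def QN : Ex := (.add (.mul (.W 0 2) (.mul (.c (2)) NN)) (.mul VN PN))
def FN : Ex := (.add (.mul (.W 1 1) (.mul (.mul (.c (2)) rN) DN)) (.mul MN QN))
def YN : Ex := (.add (.mul (.W 0 2) (.mul NN MN)) (.mul (.W 1 1) (.mul rN DN)))
def ZN : Ex := (.add (.mul (.W 0 1) (.mul (.mul (.c (2)) YN) (.add (.mul BN DN) (.mul (.W 0 1) (.mul (.mul (.mul (.c (2)) bN) vN) (.mul AAN NN)))))) (.mul vN (.sub (.mul (.W 2 1) (.mul N3N (.mul DN DN))) (.mul (.mul bN AAN) (.mul QN FN)))))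
def TN : Ex := (.sub (.mul (.mul (.mul QN (.mul BN BN)) (.mul DN DN)) (.mul FN FN)) (.mul PN (.mul ZN ZN)))

set_option maxRecDepth 100000 in
theorem run_ok : run 3 325 8 [11, 23, 3] [512, 190, 360] [[TN]]
    (.node 1 (.node 0 (.leaf 0) (.leaf 0)) (.leaf 0)) [(0, 256), (0, 95), (102, 180)] = true := by
  decide +kernel

end Crest.Agent.R307.Edge.A1
end

-- ▼ part R307/Edge/A1
section

set_option autoImplicit false
set_option linter.unusedSimpArgs false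
set_option linter.unusedTactic false
set_option linter.unusedVariables false

namespace Crest.Agent.R307.Edge.A1

open Crest.Agent.KB

/-- the point -/
def xv (x0 x1 x2 : ℝ) : ℕ → ℝ
  | 0 => x0
  | 1 => x1
  | _ => x2

theorem core (x0 x1 x2 : ℝ) (hx0 : (0 : ℝ) / 256 ≤ x0) (hx0' : x0 ≤ (256 : ℝ) / 256) (hx1 : (0 : ℝ) / 256 ≤ x1) (hx1' : x1 ≤ (95 : ℝ) / 256) (hx2 : (102 : ℝ) / 256 ≤ x2) (hx2' : x2 ≤ (180 : ℝ) / 256) :
    (0 ≤ TN.val (xv x0 x1 x2) (fun _ => 1)) := by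
  obtain ⟨cl, hcl, h⟩ := run_sound _ _ _ _ _ _ _ _ run_ok (xv x0 x1 x2) (by
    intro i hi
    interval_cases i <;> norm_num [ba, bb, xv] <;> constructor <;> linarith)
  simp only [List.mem_cons, List.not_mem_nil, or_false] at hcl
  subst hcl
  exact h TN (by simp)

theorem vals (x0 x1 x2 v r b P M N AA V N3 B D Q F Y Z T : ℝ)
    (hv : x0 = 1 * v)
    (hr : x1 = 1 * r)
    (hb : x2 = 1 * b)
    (hP : P = (((1 : ℝ) + r) * ((1 : ℝ) + r)))
    (hM : M = (((1 : ℝ) - r) * ((1 : ℝ) - r)))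
    (hN : N = ((1 : ℝ) + (r * r)))
    (hAA : AA = (P * M))
    (hV : V = (v * v))
    (hN3 : N3 = ((N * N) * N))
    (hB : B = ((N * N) - (b * AA)))
    (hD : D = (M + (V * P)))
    (hQ : Q = (((2 : ℝ) * N) + (V * P)))
    (hF : F = ((((2 : ℝ) * r) * D) + (M * Q)))
    (hY : Y = ((N * M) + (r * D)))
    (hZ : Z = ((((2 : ℝ) * Y) * ((B * D) + ((((2 : ℝ) * b) * v) * (AA * N)))) + (v * ((N3 * (D * D)) - ((b * AA) * (Q * F))))))
    (hT : T = ((((Q * (B * B)) * (D * D)) * (F * F)) - (P * (Z * Z))))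
    :
    TN.val (xv x0 x1 x2) (fun _ => 1) = 1 * T := by
  set X := (xv x0 x1 x2) with hX
  have e0 : X 0 = x0 := rfl
  have e1 : X 1 = x1 := rfl
  have e2 : X 2 = x2 := rfl
  have vvN : vN.val X (fun _ => 1) = 1 * v := by
    simp only [vN, Ex.val, e0, e1, e2]; rw [← hv]; push_cast; ring
  have vrN : rN.val X (fun _ => 1) = 1 * r := by
    simp only [rN, Ex.val, e0, e1, e2]; rw [← hr]; push_cast; ring
  have vbN : bN.val X (fun _ => 1) = 1 * b := by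
    simp only [bN, Ex.val, e0, e1, e2]; rw [← hb]; push_cast; ring
  clear_value X
  have vPN : PN.val X (fun _ => 1) = 1 * P := by
    simp only [PN, Ex.val, vrN]; rw [hP]; push_cast; ring
  have vMN : MN.val X (fun _ => 1) = 1 * M := by
    simp only [MN, Ex.val, vrN]; rw [hM]; push_cast; ring
  have vNN : NN.val X (fun _ => 1) = 1 * N := by
    simp only [NN, Ex.val, vrN]; rw [hN]; push_cast; ring
  have vAAN : AAN.val X (fun _ => 1) = 1 * AA := by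
    simp only [AAN, Ex.val, vPN, vMN]; rw [hAA]; push_cast; ring
  have vVN : VN.val X (fun _ => 1) = 1 * V := by
    simp only [VN, Ex.val, vvN]; rw [hV]; push_cast; ring
  have vN3N : N3N.val X (fun _ => 1) = 1 * N3 := by
    simp only [N3N, Ex.val, vNN]; rw [hN3]; push_cast; ring
  have vBN : BN.val X (fun _ => 1) = 1 * B := by
    simp only [BN, Ex.val, vNN, vbN, vAAN]; rw [hB]; push_cast; ring
  have vDN : DN.val X (fun _ => 1) = 1 * D := by
    simp only [DN, Ex.val, vMN, vVN, vPN]; rw [hD]; push_cast; ring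
  have vQN : QN.val X (fun _ => 1) = 1 * Q := by
    simp only [QN, Ex.val, vNN, vVN, vPN]; rw [hQ]; push_cast; ring
  have vFN : FN.val X (fun _ => 1) = 1 * F := by
    simp only [FN, Ex.val, vrN, vDN, vMN, vQN]; rw [hF]; push_cast; ring
  have vYN : YN.val X (fun _ => 1) = 1 * Y := by
    simp only [YN, Ex.val, vNN, vMN, vrN, vDN]; rw [hY]; push_cast; ring
  have vZN : ZN.val X (fun _ => 1) = 1 * Z := by
    simp only [ZN, Ex.val, vYN, vBN, vDN, vbN, vvN, vAAN, vNN, vN3N, vQN, vFN]; rw [hZ]; push_cast; ring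
  have vTN : TN.val X (fun _ => 1) = 1 * T := by
    simp only [TN, Ex.val, vQN, vBN, vDN, vFN, vPN, vZN]; rw [hT]; push_cast; ring
  exact vTN

theorem main (x0 x1 x2 v r b P M N AA V N3 B D Q F Y Z T : ℝ) (hx0 : (0 : ℝ) / 256 ≤ x0) (hx0' : x0 ≤ (256 : ℝ) / 256) (hx1 : (0 : ℝ) / 256 ≤ x1) (hx1' : x1 ≤ (95 : ℝ) / 256) (hx2 : (102 : ℝ) / 256 ≤ x2) (hx2' : x2 ≤ (180 : ℝ) / 256)
    (hv : x0 = 1 * v)
    (hr : x1 = 1 * r)
    (hb : x2 = 1 * b)
    (hP : P = (((1 : ℝ) + r) * ((1 : ℝ) + r)))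
    (hM : M = (((1 : ℝ) - r) * ((1 : ℝ) - r)))
    (hN : N = ((1 : ℝ) + (r * r)))
    (hAA : AA = (P * M))
    (hV : V = (v * v))
    (hN3 : N3 = ((N * N) * N))
    (hB : B = ((N * N) - (b * AA)))
    (hD : D = (M + (V * P)))
    (hQ : Q = (((2 : ℝ) * N) + (V * P)))
    (hF : F = ((((2 : ℝ) * r) * D) + (M * Q)))
    (hY : Y = ((N * M) + (r * D)))
    (hZ : Z = ((((2 : ℝ) * Y) * ((B * D) + ((((2 : ℝ) * b) * v) * (AA * N)))) + (v * ((N3 * (D * D)) - ((b * AA) * (Q * F))))))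
    (hT : T = ((((Q * (B * B)) * (D * D)) * (F * F)) - (P * (Z * Z))))
    :
    (0 ≤ T) := by
  have hv := vals x0 x1 x2 v r b P M N AA V N3 B D Q F Y Z T hv hr hb hP hM hN hAA hV hN3 hB hD hQ hF hY hZ hT
  have hc := core x0 x1 x2 hx0 hx0' hx1 hx1' hx2 hx2'
  have w0 := hv
  simp only [w0] at hc
  have a0 := hc
  exact nonneg_of_mul_nonneg_right a0 (by positivity)

end Crest.Agent.R307.Edge.A1
private theorem rz_a2667c3316 : type_of% @_root_.Crest.Agent.R307.Edge.A1.xv.eq_1 := @_root_.Crest.Agent.R307.Edge.A1.xv.eq_1 -- L13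
end

-- ▼ part R307/Edge/A1bx
section

set_option autoImplicit false

namespace Crest.Agent.R307.Edge.A1b

open Crest.Agent.KB

def vN : Ex := (.X 0 1)
def rN : Ex := (.X 1 1)
def bN : Ex := (.X 2 1)
def PN : Ex := (.mul (.add (.mul (.W 1 1) (.c (1))) rN) (.add (.mul (.W 1 1) (.c (1))) rN))
def MN : Ex := (.mul (.sub (.mul (.W 1 1) (.c (1))) rN) (.sub (.mul (.W 1 1) (.c (1))) rN))
def NN : Ex := (.add (.mul (.W 1 2) (.c (1))) (.mul rN rN))
def AAN : Ex := (.mul PN MN)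
def VN : Ex := (.mul vN vN)
def N3N : Ex := (.mul (.mul NN NN) NN)
def BN : Ex := (.sub (.mul (.W 2 1) (.mul NN NN)) (.mul bN AAN))
def DN : Ex := (.add (.mul (.W 0 2) MN) (.mul VN PN))
def QN : Ex := (.add (.mul (.W 0 2) (.mul (.c (2)) NN)) (.mul VN PN))
def FN : Ex := (.add (.mul (.W 1 1) (.mul (.mul (.c (2)) rN) DN)) (.mul MN QN))
def YN : Ex := (.add (.mul (.W 0 2) (.mul NN MN)) (.mul (.W 1 1) (.mul rN DN)))
def ZN : Ex := (.add (.mul (.W 0 1) (.mul (.mul (.c (2)) YN) (.add (.mul BN DN) (.mul (.W 0 1) (.mul (.mul (.mul (.c (2)) bN) vN) (.mul AAN NN)))))) (.mul vN (.sub (.mul (.W 2 1) (.mul N3N (.mul DN DN))) (.mul (.mul bN AAN) (.mul QN FN)))))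
def TN : Ex := (.sub (.mul (.mul (.mul QN (.mul BN BN)) (.mul DN DN)) (.mul FN FN)) (.mul PN (.mul ZN ZN)))

set_option maxRecDepth 100000 in
theorem run_ok : run 3 326 8 [11, 23, 3] [512, 202, 360] [[TN]]
    (.node 1 (.node 0 (.leaf 0) (.leaf 0)) (.leaf 0)) [(0, 256), (0, 101), (139, 180)] = true := by
  decide +kernel

end Crest.Agent.R307.Edge.A1b
end

-- ▼ part R307/Edge/A1b
section

set_option autoImplicit false
set_option linter.unusedSimpArgs false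
set_option linter.unusedTactic false
set_option linter.unusedVariables false

namespace Crest.Agent.R307.Edge.A1b

open Crest.Agent.KB

/-- the point -/
def xv (x0 x1 x2 : ℝ) : ℕ → ℝ
  | 0 => x0
  | 1 => x1
  | _ => x2

theorem core (x0 x1 x2 : ℝ) (hx0 : (0 : ℝ) / 256 ≤ x0) (hx0' : x0 ≤ (256 : ℝ) / 256) (hx1 : (0 : ℝ) / 256 ≤ x1) (hx1' : x1 ≤ (101 : ℝ) / 256) (hx2 : (139 : ℝ) / 256 ≤ x2) (hx2' : x2 ≤ (180 : ℝ) / 256) :
    (0 ≤ TN.val (xv x0 x1 x2) (fun _ => 1)) := by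
  obtain ⟨cl, hcl, h⟩ := run_sound _ _ _ _ _ _ _ _ run_ok (xv x0 x1 x2) (by
    intro i hi
    interval_cases i <;> norm_num [ba, bb, xv] <;> constructor <;> linarith)
  simp only [List.mem_cons, List.not_mem_nil, or_false] at hcl
  subst hcl
  exact h TN (by simp)

theorem vals (x0 x1 x2 v r b P M N AA V N3 B D Q F Y Z T : ℝ)
    (hv : x0 = 1 * v)
    (hr : x1 = 1 * r)
    (hb : x2 = 1 * b)
    (hP : P = (((1 : ℝ) + r) * ((1 : ℝ) + r)))
    (hM : M = (((1 : ℝ) - r) * ((1 : ℝ) - r)))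
    (hN : N = ((1 : ℝ) + (r * r)))
    (hAA : AA = (P * M))
    (hV : V = (v * v))
    (hN3 : N3 = ((N * N) * N))
    (hB : B = ((N * N) - (b * AA)))
    (hD : D = (M + (V * P)))
    (hQ : Q = (((2 : ℝ) * N) + (V * P)))
    (hF : F = ((((2 : ℝ) * r) * D) + (M * Q)))
    (hY : Y = ((N * M) + (r * D)))
    (hZ : Z = ((((2 : ℝ) * Y) * ((B * D) + ((((2 : ℝ) * b) * v) * (AA * N)))) + (v * ((N3 * (D * D)) - ((b * AA) * (Q * F))))))
    (hT : T = ((((Q * (B * B)) * (D * D)) * (F * F)) - (P * (Z * Z))))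
    :
    TN.val (xv x0 x1 x2) (fun _ => 1) = 1 * T := by
  set X := (xv x0 x1 x2) with hX
  have e0 : X 0 = x0 := rfl
  have e1 : X 1 = x1 := rfl
  have e2 : X 2 = x2 := rfl
  have vvN : vN.val X (fun _ => 1) = 1 * v := by
    simp only [vN, Ex.val, e0, e1, e2]; rw [← hv]; push_cast; ring
  have vrN : rN.val X (fun _ => 1) = 1 * r := by
    simp only [rN, Ex.val, e0, e1, e2]; rw [← hr]; push_cast; ring
  have vbN : bN.val X (fun _ => 1) = 1 * b := by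
    simp only [bN, Ex.val, e0, e1, e2]; rw [← hb]; push_cast; ring
  clear_value X
  have vPN : PN.val X (fun _ => 1) = 1 * P := by
    simp only [PN, Ex.val, vrN]; rw [hP]; push_cast; ring
  have vMN : MN.val X (fun _ => 1) = 1 * M := by
    simp only [MN, Ex.val, vrN]; rw [hM]; push_cast; ring
  have vNN : NN.val X (fun _ => 1) = 1 * N := by
    simp only [NN, Ex.val, vrN]; rw [hN]; push_cast; ring
  have vAAN : AAN.val X (fun _ => 1) = 1 * AA := by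
    simp only [AAN, Ex.val, vPN, vMN]; rw [hAA]; push_cast; ring
  have vVN : VN.val X (fun _ => 1) = 1 * V := by
    simp only [VN, Ex.val, vvN]; rw [hV]; push_cast; ring
  have vN3N : N3N.val X (fun _ => 1) = 1 * N3 := by
    simp only [N3N, Ex.val, vNN]; rw [hN3]; push_cast; ring
  have vBN : BN.val X (fun _ => 1) = 1 * B := by
    simp only [BN, Ex.val, vNN, vbN, vAAN]; rw [hB]; push_cast; ring
  have vDN : DN.val X (fun _ => 1) = 1 * D := by
    simp only [DN, Ex.val, vMN, vVN, vPN]; rw [hD]; push_cast; ring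
  have vQN : QN.val X (fun _ => 1) = 1 * Q := by
    simp only [QN, Ex.val, vNN, vVN, vPN]; rw [hQ]; push_cast; ring
  have vFN : FN.val X (fun _ => 1) = 1 * F := by
    simp only [FN, Ex.val, vrN, vDN, vMN, vQN]; rw [hF]; push_cast; ring
  have vYN : YN.val X (fun _ => 1) = 1 * Y := by
    simp only [YN, Ex.val, vNN, vMN, vrN, vDN]; rw [hY]; push_cast; ring
  have vZN : ZN.val X (fun _ => 1) = 1 * Z := by
    simp only [ZN, Ex.val, vYN, vBN, vDN, vbN, vvN, vAAN, vNN, vN3N, vQN, vFN]; rw [hZ]; push_cast; ring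
  have vTN : TN.val X (fun _ => 1) = 1 * T := by
    simp only [TN, Ex.val, vQN, vBN, vDN, vFN, vPN, vZN]; rw [hT]; push_cast; ring
  exact vTN

theorem main (x0 x1 x2 v r b P M N AA V N3 B D Q F Y Z T : ℝ) (hx0 : (0 : ℝ) / 256 ≤ x0) (hx0' : x0 ≤ (256 : ℝ) / 256) (hx1 : (0 : ℝ) / 256 ≤ x1) (hx1' : x1 ≤ (101 : ℝ) / 256) (hx2 : (139 : ℝ) / 256 ≤ x2) (hx2' : x2 ≤ (180 : ℝ) / 256)
    (hv : x0 = 1 * v)
    (hr : x1 = 1 * r)
    (hb : x2 = 1 * b)
    (hP : P = (((1 : ℝ) + r) * ((1 : ℝ) + r)))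
    (hM : M = (((1 : ℝ) - r) * ((1 : ℝ) - r)))
    (hN : N = ((1 : ℝ) + (r * r)))
    (hAA : AA = (P * M))
    (hV : V = (v * v))
    (hN3 : N3 = ((N * N) * N))
    (hB : B = ((N * N) - (b * AA)))
    (hD : D = (M + (V * P)))
    (hQ : Q = (((2 : ℝ) * N) + (V * P)))
    (hF : F = ((((2 : ℝ) * r) * D) + (M * Q)))
    (hY : Y = ((N * M) + (r * D)))
    (hZ : Z = ((((2 : ℝ) * Y) * ((B * D) + ((((2 : ℝ) * b) * v) * (AA * N)))) + (v * ((N3 * (D * D)) - ((b * AA) * (Q * F))))))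
    (hT : T = ((((Q * (B * B)) * (D * D)) * (F * F)) - (P * (Z * Z))))
    :
    (0 ≤ T) := by
  have hv := vals x0 x1 x2 v r b P M N AA V N3 B D Q F Y Z T hv hr hb hP hM hN hAA hV hN3 hB hD hQ hF hY hZ hT
  have hc := core x0 x1 x2 hx0 hx0' hx1 hx1' hx2 hx2'
  have w0 := hv
  simp only [w0] at hc
  have a0 := hc
  exact nonneg_of_mul_nonneg_right a0 (by positivity)

end Crest.Agent.R307.Edge.A1b
private theorem rz_4acd33dabd : type_of% @_root_.Crest.Agent.R307.Edge.A1b.xv.eq_1 := @_root_.Crest.Agent.R307.Edge.A1b.xv.eq_1 -- L13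
end

-- ▼ part R307/Edge/A2x
section

set_option autoImplicit false

namespace Crest.Agent.R307.Edge.A2

open Crest.Agent.KB

def vN : Ex := (.X 0 1)
def rN : Ex := (.X 1 1)
def bN : Ex := (.X 2 1)
def PN : Ex := (.mul (.add (.mul (.W 1 1) (.c (1))) rN) (.add (.mul (.W 1 1) (.c (1))) rN))
def MN : Ex := (.mul (.sub (.mul (.W 1 1) (.c (1))) rN) (.sub (.mul (.W 1 1) (.c (1))) rN))
def NN : Ex := (.add (.mul (.W 1 2) (.c (1))) (.mul rN rN))
def AAN : Ex := (.mul PN MN)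
def VN : Ex := (.mul vN vN)
def N3N : Ex := (.mul (.mul NN NN) NN)
def BN : Ex := (.sub (.mul (.W 2 1) (.mul NN NN)) (.mul bN AAN))
def DN : Ex := (.add (.mul (.W 0 2) PN) (.mul VN MN))
def QN : Ex := (.add (.mul PN (.add (.mul (.W 0 2) (.c (1))) VN)) (.mul VN MN))
def FN : Ex := (.add (.mul (.W 1 1) (.mul (.mul (.c (2)) rN) DN)) (.mul MN QN))
def YN : Ex := (.add (.mul (.W 0 2) (.mul NN PN)) (.mul (.W 1 1) (.mul rN DN)))
def EN : Ex := (.sub (.mul QN (.add (.mul (.W 0 2) (.mul NN PN)) (.mul (.W 1 1) (.mul (.mul (.c (2)) rN) DN)))) (.mul (.W 1 1) (.mul (.mul (.mul (.mul (.c (2)) rN) VN) NN) DN)))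
def ZN : Ex := (.sub (.add (.mul (.mul (.mul (.mul (.c (2)) (.mul vN VN)) YN) (.add (.mul BN DN) (.mul (.W 0 1) (.mul (.mul (.mul (.c (2)) bN) vN) (.mul AAN NN))))) (.mul NN FN)) (.mul (.W 2 1) (.mul (.W 0 1) (.mul (.mul N3N (.mul DN DN)) EN)))) (.mul (.W 0 1) (.mul (.mul bN AAN) (.mul QN (.mul EN FN)))))
def TN : Ex := (.sub (.mul (.mul (.mul QN (.mul BN BN)) (.mul DN DN)) (.mul (.mul EN FN) (.mul EN FN))) (.mul PN (.mul ZN ZN)))

set_option maxRecDepth 100000 in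
theorem run_ok : run 3 517 8 [19, 35, 3] [512, 202, 360] [[TN]]
    (.leaf 0) [(0, 256), (0, 101), (76, 180)] = true := by
  decide +kernel

end Crest.Agent.R307.Edge.A2
end

-- ▼ part R307/Edge/A2
section

set_option autoImplicit false
set_option linter.unusedSimpArgs false
set_option linter.unusedTactic false
set_option linter.unusedVariables false

namespace Crest.Agent.R307.Edge.A2

open Crest.Agent.KB

/-- the point -/
def xv (x0 x1 x2 : ℝ) : ℕ → ℝ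
  | 0 => x0
  | 1 => x1
  | _ => x2

theorem core (x0 x1 x2 : ℝ) (hx0 : (0 : ℝ) / 256 ≤ x0) (hx0' : x0 ≤ (256 : ℝ) / 256) (hx1 : (0 : ℝ) / 256 ≤ x1) (hx1' : x1 ≤ (101 : ℝ) / 256) (hx2 : (76 : ℝ) / 256 ≤ x2) (hx2' : x2 ≤ (180 : ℝ) / 256) :
    (0 ≤ TN.val (xv x0 x1 x2) (fun _ => 1)) := by
  obtain ⟨cl, hcl, h⟩ := run_sound _ _ _ _ _ _ _ _ run_ok (xv x0 x1 x2) (by
    intro i hi
    interval_cases i <;> norm_num [ba, bb, xv] <;> constructor <;> linarith)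
  simp only [List.mem_cons, List.not_mem_nil, or_false] at hcl
  subst hcl
  exact h TN (by simp)

theorem vals (x0 x1 x2 v r b P M N AA V N3 B D Q F Y E Z T : ℝ)
    (hv : x0 = 1 * v)
    (hr : x1 = 1 * r)
    (hb : x2 = 1 * b)
    (hP : P = (((1 : ℝ) + r) * ((1 : ℝ) + r)))
    (hM : M = (((1 : ℝ) - r) * ((1 : ℝ) - r)))
    (hN : N = ((1 : ℝ) + (r * r)))
    (hAA : AA = (P * M))
    (hV : V = (v * v))
    (hN3 : N3 = ((N * N) * N))
    (hB : B = ((N * N) - (b * AA)))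
    (hD : D = (P + (V * M)))
    (hQ : Q = ((P * ((1 : ℝ) + V)) + (V * M)))
    (hF : F = ((((2 : ℝ) * r) * D) + (M * Q)))
    (hY : Y = ((N * P) + (r * D)))
    (hE : E = ((Q * ((N * P) + (((2 : ℝ) * r) * D))) - (((((2 : ℝ) * r) * V) * N) * D)))
    (hZ : Z = (((((((2 : ℝ) * (v * V)) * Y) * ((B * D) + ((((2 : ℝ) * b) * v) * (AA * N)))) * (N * F)) + ((N3 * (D * D)) * E)) - ((b * AA) * (Q * (E * F)))))
    (hT : T = ((((Q * (B * B)) * (D * D)) * ((E * F) * (E * F))) - (P * (Z * Z))))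
    :
    TN.val (xv x0 x1 x2) (fun _ => 1) = 1 * T := by
  set X := (xv x0 x1 x2) with hX
  have e0 : X 0 = x0 := rfl
  have e1 : X 1 = x1 := rfl
  have e2 : X 2 = x2 := rfl
  have vvN : vN.val X (fun _ => 1) = 1 * v := by
    simp only [vN, Ex.val, e0, e1, e2]; rw [← hv]; push_cast; ring
  have vrN : rN.val X (fun _ => 1) = 1 * r := by
    simp only [rN, Ex.val, e0, e1, e2]; rw [← hr]; push_cast; ring
  have vbN : bN.val X (fun _ => 1) = 1 * b := by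
    simp only [bN, Ex.val, e0, e1, e2]; rw [← hb]; push_cast; ring
  clear_value X
  have vPN : PN.val X (fun _ => 1) = 1 * P := by
    simp only [PN, Ex.val, vrN]; rw [hP]; push_cast; ring
  have vMN : MN.val X (fun _ => 1) = 1 * M := by
    simp only [MN, Ex.val, vrN]; rw [hM]; push_cast; ring
  have vNN : NN.val X (fun _ => 1) = 1 * N := by
    simp only [NN, Ex.val, vrN]; rw [hN]; push_cast; ring
  have vAAN : AAN.val X (fun _ => 1) = 1 * AA := by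
    simp only [AAN, Ex.val, vPN, vMN]; rw [hAA]; push_cast; ring
  have vVN : VN.val X (fun _ => 1) = 1 * V := by
    simp only [VN, Ex.val, vvN]; rw [hV]; push_cast; ring
  have vN3N : N3N.val X (fun _ => 1) = 1 * N3 := by
    simp only [N3N, Ex.val, vNN]; rw [hN3]; push_cast; ring
  have vBN : BN.val X (fun _ => 1) = 1 * B := by
    simp only [BN, Ex.val, vNN, vbN, vAAN]; rw [hB]; push_cast; ring
  have vDN : DN.val X (fun _ => 1) = 1 * D := by
    simp only [DN, Ex.val, vPN, vVN, vMN]; rw [hD]; push_cast; ring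
  have vQN : QN.val X (fun _ => 1) = 1 * Q := by
    simp only [QN, Ex.val, vPN, vVN, vMN]; rw [hQ]; push_cast; ring
  have vFN : FN.val X (fun _ => 1) = 1 * F := by
    simp only [FN, Ex.val, vrN, vDN, vMN, vQN]; rw [hF]; push_cast; ring
  have vYN : YN.val X (fun _ => 1) = 1 * Y := by
    simp only [YN, Ex.val, vNN, vPN, vrN, vDN]; rw [hY]; push_cast; ring
  have vEN : EN.val X (fun _ => 1) = 1 * E := by
    simp only [EN, Ex.val, vQN, vNN, vPN, vrN, vDN, vVN]; rw [hE]; push_cast; ring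
  have vZN : ZN.val X (fun _ => 1) = 1 * Z := by
    simp only [ZN, Ex.val, vvN, vVN, vYN, vBN, vDN, vbN, vAAN, vNN, vFN, vN3N, vEN, vQN]; rw [hZ]; push_cast; ring
  have vTN : TN.val X (fun _ => 1) = 1 * T := by
    simp only [TN, Ex.val, vQN, vBN, vDN, vEN, vFN, vPN, vZN]; rw [hT]; push_cast; ring
  exact vTN

theorem main (x0 x1 x2 v r b P M N AA V N3 B D Q F Y E Z T : ℝ) (hx0 : (0 : ℝ) / 256 ≤ x0) (hx0' : x0 ≤ (256 : ℝ) / 256) (hx1 : (0 : ℝ) / 256 ≤ x1) (hx1' : x1 ≤ (101 : ℝ) / 256) (hx2 : (76 : ℝ) / 256 ≤ x2) (hx2' : x2 ≤ (180 : ℝ) / 256)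
    (hv : x0 = 1 * v)
    (hr : x1 = 1 * r)
    (hb : x2 = 1 * b)
    (hP : P = (((1 : ℝ) + r) * ((1 : ℝ) + r)))
    (hM : M = (((1 : ℝ) - r) * ((1 : ℝ) - r)))
    (hN : N = ((1 : ℝ) + (r * r)))
    (hAA : AA = (P * M))
    (hV : V = (v * v))
    (hN3 : N3 = ((N * N) * N))
    (hB : B = ((N * N) - (b * AA)))
    (hD : D = (P + (V * M)))
    (hQ : Q = ((P * ((1 : ℝ) + V)) + (V * M)))
    (hF : F = ((((2 : ℝ) * r) * D) + (M * Q)))
    (hY : Y = ((N * P) + (r * D)))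
    (hE : E = ((Q * ((N * P) + (((2 : ℝ) * r) * D))) - (((((2 : ℝ) * r) * V) * N) * D)))
    (hZ : Z = (((((((2 : ℝ) * (v * V)) * Y) * ((B * D) + ((((2 : ℝ) * b) * v) * (AA * N)))) * (N * F)) + ((N3 * (D * D)) * E)) - ((b * AA) * (Q * (E * F)))))
    (hT : T = ((((Q * (B * B)) * (D * D)) * ((E * F) * (E * F))) - (P * (Z * Z))))
    :
    (0 ≤ T) := by
  have hv := vals x0 x1 x2 v r b P M N AA V N3 B D Q F Y E Z T hv hr hb hP hM hN hAA hV hN3 hB hD hQ hF hY hE hZ hT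
  have hc := core x0 x1 x2 hx0 hx0' hx1 hx1' hx2 hx2'
  have w0 := hv
  simp only [w0] at hc
  have a0 := hc
  exact nonneg_of_mul_nonneg_right a0 (by positivity)

end Crest.Agent.R307.Edge.A2
private theorem rz_e17a122bad : type_of% @_root_.Crest.Agent.R307.Edge.A2.xv.eq_1 := @_root_.Crest.Agent.R307.Edge.A2.xv.eq_1 -- L13
end

-- ▼ part R307/Edge/A3x
section

set_option autoImplicit false

namespace Crest.Agent.R307.Edge.A3

open Crest.Agent.KB

def vN : Ex := (.X 0 1)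
def rN : Ex := (.X 1 1)
def bN : Ex := (.X 2 1)
def PN : Ex := (.mul (.add (.mul (.W 1 1) (.c (1))) rN) (.add (.mul (.W 1 1) (.c (1))) rN))
def MN : Ex := (.mul (.sub (.mul (.W 1 1) (.c (1))) rN) (.sub (.mul (.W 1 1) (.c (1))) rN))
def NN : Ex := (.add (.mul (.W 1 2) (.c (1))) (.mul rN rN))
def AAN : Ex := (.mul PN MN)
def VN : Ex := (.mul vN vN)
def N3N : Ex := (.mul (.mul NN NN) NN)
def BN : Ex := (.sub (.mul (.W 2 1) (.mul NN NN)) (.mul bN AAN))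
def DN : Ex := (.add (.mul (.W 0 2) MN) (.mul VN PN))
def QN : Ex := (.add (.mul (.W 0 2) (.mul (.c (2)) NN)) (.mul VN PN))
def FN : Ex := (.add (.mul (.W 1 1) (.mul (.mul (.c (2)) rN) DN)) (.mul MN QN))
def YN : Ex := (.mul NN (.sub (.mul (.W 0 2) (.mul MN (.add NN (.mul (.W 1 1) (.mul (.c (3)) rN))))) (.mul (.W 1 1) (.mul rN (.mul VN PN)))))
def EN : Ex := (.add (.mul (.W 0 2) (.mul (.mul (.mul (.c (2)) MN) NN) (.add NN (.mul (.W 1 1) (.mul (.c (3)) rN))))) (.mul (.mul VN PN) (.sub (.mul NN NN) (.mul (.W 1 2) (.mul (.c (8)) (.mul rN rN))))))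
def ZN : Ex := (.add (.mul (.W 0 1) (.mul (.mul (.mul (.c (2)) YN) (.add (.mul BN DN) (.mul (.W 0 1) (.mul (.mul (.mul (.c (2)) bN) vN) (.mul AAN NN))))) FN)) (.mul vN (.sub (.mul (.W 2 1) (.mul (.mul N3N (.mul DN DN)) EN)) (.mul (.mul bN AAN) (.mul QN (.mul EN FN))))))
def TN : Ex := (.sub (.mul (.mul (.mul QN (.mul BN BN)) (.mul DN DN)) (.mul (.mul EN FN) (.mul EN FN))) (.mul PN (.mul ZN ZN)))

set_option maxRecDepth 100000 in
theorem run_ok : run 3 478 8 [15, 35, 3] [512, 202, 360] [[TN]]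
    (.leaf 0) [(0, 256), (0, 101), (76, 180)] = true := by
  decide +kernel

end Crest.Agent.R307.Edge.A3
end

-- ▼ part R307/Edge/A3
section

set_option autoImplicit false
set_option linter.unusedSimpArgs false
set_option linter.unusedTactic false
set_option linter.unusedVariables false

namespace Crest.Agent.R307.Edge.A3

open Crest.Agent.KB

/-- the point -/
def xv (x0 x1 x2 : ℝ) : ℕ → ℝ
  | 0 => x0
  | 1 => x1
  | _ => x2

theorem core (x0 x1 x2 : ℝ) (hx0 : (0 : ℝ) / 256 ≤ x0) (hx0' : x0 ≤ (256 : ℝ) / 256) (hx1 : (0 : ℝ) / 256 ≤ x1) (hx1' : x1 ≤ (101 : ℝ) / 256) (hx2 : (76 : ℝ) / 256 ≤ x2) (hx2' : x2 ≤ (180 : ℝ) / 256) :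
    (0 ≤ TN.val (xv x0 x1 x2) (fun _ => 1)) := by
  obtain ⟨cl, hcl, h⟩ := run_sound _ _ _ _ _ _ _ _ run_ok (xv x0 x1 x2) (by
    intro i hi
    interval_cases i <;> norm_num [ba, bb, xv] <;> constructor <;> linarith)
  simp only [List.mem_cons, List.not_mem_nil, or_false] at hcl
  subst hcl
  exact h TN (by simp)

theorem vals (x0 x1 x2 v r b P M N AA V N3 B D Q F Y E Z T : ℝ)
    (hv : x0 = 1 * v)
    (hr : x1 = 1 * r)
    (hb : x2 = 1 * b)
    (hP : P = (((1 : ℝ) + r) * ((1 : ℝ) + r)))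
    (hM : M = (((1 : ℝ) - r) * ((1 : ℝ) - r)))
    (hN : N = ((1 : ℝ) + (r * r)))
    (hAA : AA = (P * M))
    (hV : V = (v * v))
    (hN3 : N3 = ((N * N) * N))
    (hB : B = ((N * N) - (b * AA)))
    (hD : D = (M + (V * P)))
    (hQ : Q = (((2 : ℝ) * N) + (V * P)))
    (hF : F = ((((2 : ℝ) * r) * D) + (M * Q)))
    (hY : Y = (N * ((M * (N + ((3 : ℝ) * r))) - (r * (V * P)))))
    (hE : E = (((((2 : ℝ) * M) * N) * (N + ((3 : ℝ) * r))) + ((V * P) * ((N * N) - ((8 : ℝ) * (r * r))))))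
    (hZ : Z = (((((2 : ℝ) * Y) * ((B * D) + ((((2 : ℝ) * b) * v) * (AA * N)))) * F) + (v * (((N3 * (D * D)) * E) - ((b * AA) * (Q * (E * F)))))))
    (hT : T = ((((Q * (B * B)) * (D * D)) * ((E * F) * (E * F))) - (P * (Z * Z))))
    :
    TN.val (xv x0 x1 x2) (fun _ => 1) = 1 * T := by
  set X := (xv x0 x1 x2) with hX
  have e0 : X 0 = x0 := rfl
  have e1 : X 1 = x1 := rfl
  have e2 : X 2 = x2 := rfl
  have vvN : vN.val X (fun _ => 1) = 1 * v := by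
    simp only [vN, Ex.val, e0, e1, e2]; rw [← hv]; push_cast; ring
  have vrN : rN.val X (fun _ => 1) = 1 * r := by
    simp only [rN, Ex.val, e0, e1, e2]; rw [← hr]; push_cast; ring
  have vbN : bN.val X (fun _ => 1) = 1 * b := by
    simp only [bN, Ex.val, e0, e1, e2]; rw [← hb]; push_cast; ring
  clear_value X
  have vPN : PN.val X (fun _ => 1) = 1 * P := by
    simp only [PN, Ex.val, vrN]; rw [hP]; push_cast; ring
  have vMN : MN.val X (fun _ => 1) = 1 * M := by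
    simp only [MN, Ex.val, vrN]; rw [hM]; push_cast; ring
  have vNN : NN.val X (fun _ => 1) = 1 * N := by
    simp only [NN, Ex.val, vrN]; rw [hN]; push_cast; ring
  have vAAN : AAN.val X (fun _ => 1) = 1 * AA := by
    simp only [AAN, Ex.val, vPN, vMN]; rw [hAA]; push_cast; ring
  have vVN : VN.val X (fun _ => 1) = 1 * V := by
    simp only [VN, Ex.val, vvN]; rw [hV]; push_cast; ring
  have vN3N : N3N.val X (fun _ => 1) = 1 * N3 := by
    simp only [N3N, Ex.val, vNN]; rw [hN3]; push_cast; ring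
  have vBN : BN.val X (fun _ => 1) = 1 * B := by
    simp only [BN, Ex.val, vNN, vbN, vAAN]; rw [hB]; push_cast; ring
  have vDN : DN.val X (fun _ => 1) = 1 * D := by
    simp only [DN, Ex.val, vMN, vVN, vPN]; rw [hD]; push_cast; ring
  have vQN : QN.val X (fun _ => 1) = 1 * Q := by
    simp only [QN, Ex.val, vNN, vVN, vPN]; rw [hQ]; push_cast; ring
  have vFN : FN.val X (fun _ => 1) = 1 * F := by
    simp only [FN, Ex.val, vrN, vDN, vMN, vQN]; rw [hF]; push_cast; ring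
  have vYN : YN.val X (fun _ => 1) = 1 * Y := by
    simp only [YN, Ex.val, vNN, vMN, vrN, vVN, vPN]; rw [hY]; push_cast; ring
  have vEN : EN.val X (fun _ => 1) = 1 * E := by
    simp only [EN, Ex.val, vMN, vNN, vrN, vVN, vPN]; rw [hE]; push_cast; ring
  have vZN : ZN.val X (fun _ => 1) = 1 * Z := by
    simp only [ZN, Ex.val, vYN, vBN, vDN, vbN, vvN, vAAN, vNN, vFN, vN3N, vEN, vQN]; rw [hZ]; push_cast; ring
  have vTN : TN.val X (fun _ => 1) = 1 * T := by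
    simp only [TN, Ex.val, vQN, vBN, vDN, vEN, vFN, vPN, vZN]; rw [hT]; push_cast; ring
  exact vTN

theorem main (x0 x1 x2 v r b P M N AA V N3 B D Q F Y E Z T : ℝ) (hx0 : (0 : ℝ) / 256 ≤ x0) (hx0' : x0 ≤ (256 : ℝ) / 256) (hx1 : (0 : ℝ) / 256 ≤ x1) (hx1' : x1 ≤ (101 : ℝ) / 256) (hx2 : (76 : ℝ) / 256 ≤ x2) (hx2' : x2 ≤ (180 : ℝ) / 256)
    (hv : x0 = 1 * v)
    (hr : x1 = 1 * r)
    (hb : x2 = 1 * b)
    (hP : P = (((1 : ℝ) + r) * ((1 : ℝ) + r)))
    (hM : M = (((1 : ℝ) - r) * ((1 : ℝ) - r)))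
    (hN : N = ((1 : ℝ) + (r * r)))
    (hAA : AA = (P * M))
    (hV : V = (v * v))
    (hN3 : N3 = ((N * N) * N))
    (hB : B = ((N * N) - (b * AA)))
    (hD : D = (M + (V * P)))
    (hQ : Q = (((2 : ℝ) * N) + (V * P)))
    (hF : F = ((((2 : ℝ) * r) * D) + (M * Q)))
    (hY : Y = (N * ((M * (N + ((3 : ℝ) * r))) - (r * (V * P)))))
    (hE : E = (((((2 : ℝ) * M) * N) * (N + ((3 : ℝ) * r))) + ((V * P) * ((N * N) - ((8 : ℝ) * (r * r))))))
    (hZ : Z = (((((2 : ℝ) * Y) * ((B * D) + ((((2 : ℝ) * b) * v) * (AA * N)))) * F) + (v * (((N3 * (D * D)) * E) - ((b * AA) * (Q * (E * F)))))))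
    (hT : T = ((((Q * (B * B)) * (D * D)) * ((E * F) * (E * F))) - (P * (Z * Z))))
    :
    (0 ≤ T) := by
  have hv := vals x0 x1 x2 v r b P M N AA V N3 B D Q F Y E Z T hv hr hb hP hM hN hAA hV hN3 hB hD hQ hF hY hE hZ hT
  have hc := core x0 x1 x2 hx0 hx0' hx1 hx1' hx2 hx2'
  have w0 := hv
  simp only [w0] at hc
  have a0 := hc
  exact nonneg_of_mul_nonneg_right a0 (by positivity)

end Crest.Agent.R307.Edge.A3
private theorem rz_da3535f7c3 : type_of% @_root_.Crest.Agent.R307.Edge.A3.xv.eq_1 := @_root_.Crest.Agent.R307.Edge.A3.xv.eq_1 -- L13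
end

-- ▼ part R307/Edge/B0lx
section

set_option autoImplicit false

namespace Crest.Agent.R307.Edge.B0l

open Crest.Agent.KB

def vN : Ex := (.X 0 1)
def rN : Ex := (.X 1 1)
def bN : Ex := (.X 2 1)
def PN : Ex := (.mul (.add (.mul (.W 1 1) (.c (1))) rN) (.add (.mul (.W 1 1) (.c (1))) rN))
def MN : Ex := (.mul (.sub (.mul (.W 1 1) (.c (1))) rN) (.sub (.mul (.W 1 1) (.c (1))) rN))
def NN : Ex := (.add (.mul (.W 1 2) (.c (1))) (.mul rN rN))
def AAN : Ex := (.mul PN MN)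
def VN : Ex := (.mul vN vN)
def N3N : Ex := (.mul (.mul NN NN) NN)
def BN : Ex := (.sub (.mul (.W 2 1) (.mul NN NN)) (.mul bN AAN))
def DN : Ex := (.add (.mul (.W 0 2) PN) (.mul VN MN))
def QN : Ex := (.add (.mul (.W 0 2) (.mul PN PN)) (.mul (.mul (.c (2)) NN) (.mul VN MN)))
def FN : Ex := (.sub QN (.mul (.W 1 1) (.mul (.mul (.c (2)) rN) DN)))
def YN : Ex := (.mul MN (.add (.mul (.W 0 2) (.mul PN NN)) (.mul (.W 1 1) (.mul rN DN))))
def EN : Ex := (.add (.mul (.W 0 2) (.mul (.mul PN PN) QN)) (.mul (.W 1 1) (.mul (.mul (.mul (.mul (.c (2)) rN) VN) MN) (.sub QN (.mul NN DN)))))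
def ZN : Ex := (.sub (.add (.mul (.mul (.mul (.mul (.mul (.c (2)) (.mul vN VN)) MN) YN) (.add (.mul BN DN) (.mul (.W 0 1) (.mul (.mul (.mul (.c (2)) bN) vN) (.mul AAN NN))))) (.mul NN FN)) (.mul (.W 2 1) (.mul (.W 0 1) (.mul (.mul (.mul PN N3N) (.mul DN DN)) EN)))) (.mul (.W 0 1) (.mul (.mul bN AAN) (.mul QN (.mul EN FN)))))
def TN : Ex := (.sub (.mul (.mul (.mul QN (.mul BN BN)) (.mul DN DN)) (.mul (.mul EN FN) (.mul EN FN))) (.mul ZN ZN))

set_option maxRecDepth 100000 in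
theorem run_ok : run 3 572 8 [19, 41, 3] [512, 202, 360] [[TN]]
    (.leaf 0) [(0, 256), (0, 101), (76, 180)] = true := by
  decide +kernel

end Crest.Agent.R307.Edge.B0l
end

-- ▼ part R307/Edge/B0l
section

set_option autoImplicit false
set_option linter.unusedSimpArgs false
set_option linter.unusedTactic false
set_option linter.unusedVariables false

namespace Crest.Agent.R307.Edge.B0l

open Crest.Agent.KB

/-- the point -/
def xv (x0 x1 x2 : ℝ) : ℕ → ℝ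
  | 0 => x0
  | 1 => x1
  | _ => x2

theorem core (x0 x1 x2 : ℝ) (hx0 : (0 : ℝ) / 256 ≤ x0) (hx0' : x0 ≤ (256 : ℝ) / 256) (hx1 : (0 : ℝ) / 256 ≤ x1) (hx1' : x1 ≤ (101 : ℝ) / 256) (hx2 : (76 : ℝ) / 256 ≤ x2) (hx2' : x2 ≤ (180 : ℝ) / 256) :
    (0 ≤ TN.val (xv x0 x1 x2) (fun _ => 1)) := by
  obtain ⟨cl, hcl, h⟩ := run_sound _ _ _ _ _ _ _ _ run_ok (xv x0 x1 x2) (by
    intro i hi
    interval_cases i <;> norm_num [ba, bb, xv] <;> constructor <;> linarith)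
  simp only [List.mem_cons, List.not_mem_nil, or_false] at hcl
  subst hcl
  exact h TN (by simp)

theorem vals (x0 x1 x2 v r b P M N AA V N3 B D Q F Y E Z T : ℝ)
    (hv : x0 = 1 * v)
    (hr : x1 = 1 * r)
    (hb : x2 = 1 * b)
    (hP : P = (((1 : ℝ) + r) * ((1 : ℝ) + r)))
    (hM : M = (((1 : ℝ) - r) * ((1 : ℝ) - r)))
    (hN : N = ((1 : ℝ) + (r * r)))
    (hAA : AA = (P * M))
    (hV : V = (v * v))
    (hN3 : N3 = ((N * N) * N))
    (hB : B = ((N * N) - (b * AA)))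
    (hD : D = (P + (V * M)))
    (hQ : Q = ((P * P) + (((2 : ℝ) * N) * (V * M))))
    (hF : F = (Q - (((2 : ℝ) * r) * D)))
    (hY : Y = (M * ((P * N) + (r * D))))
    (hE : E = (((P * P) * Q) + (((((2 : ℝ) * r) * V) * M) * (Q - (N * D)))))
    (hZ : Z = ((((((((2 : ℝ) * (v * V)) * M) * Y) * ((B * D) + ((((2 : ℝ) * b) * v) * (AA * N)))) * (N * F)) + (((P * N3) * (D * D)) * E)) - ((b * AA) * (Q * (E * F)))))
    (hT : T = ((((Q * (B * B)) * (D * D)) * ((E * F) * (E * F))) - (Z * Z)))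
    :
    TN.val (xv x0 x1 x2) (fun _ => 1) = 1 * T := by
  set X := (xv x0 x1 x2) with hX
  have e0 : X 0 = x0 := rfl
  have e1 : X 1 = x1 := rfl
  have e2 : X 2 = x2 := rfl
  have vvN : vN.val X (fun _ => 1) = 1 * v := by
    simp only [vN, Ex.val, e0, e1, e2]; rw [← hv]; push_cast; ring
  have vrN : rN.val X (fun _ => 1) = 1 * r := by
    simp only [rN, Ex.val, e0, e1, e2]; rw [← hr]; push_cast; ring
  have vbN : bN.val X (fun _ => 1) = 1 * b := by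
    simp only [bN, Ex.val, e0, e1, e2]; rw [← hb]; push_cast; ring
  clear_value X
  have vPN : PN.val X (fun _ => 1) = 1 * P := by
    simp only [PN, Ex.val, vrN]; rw [hP]; push_cast; ring
  have vMN : MN.val X (fun _ => 1) = 1 * M := by
    simp only [MN, Ex.val, vrN]; rw [hM]; push_cast; ring
  have vNN : NN.val X (fun _ => 1) = 1 * N := by
    simp only [NN, Ex.val, vrN]; rw [hN]; push_cast; ring
  have vAAN : AAN.val X (fun _ => 1) = 1 * AA := by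
    simp only [AAN, Ex.val, vPN, vMN]; rw [hAA]; push_cast; ring
  have vVN : VN.val X (fun _ => 1) = 1 * V := by
    simp only [VN, Ex.val, vvN]; rw [hV]; push_cast; ring
  have vN3N : N3N.val X (fun _ => 1) = 1 * N3 := by
    simp only [N3N, Ex.val, vNN]; rw [hN3]; push_cast; ring
  have vBN : BN.val X (fun _ => 1) = 1 * B := by
    simp only [BN, Ex.val, vNN, vbN, vAAN]; rw [hB]; push_cast; ring
  have vDN : DN.val X (fun _ => 1) = 1 * D := by
    simp only [DN, Ex.val, vPN, vVN, vMN]; rw [hD]; push_cast; ring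
  have vQN : QN.val X (fun _ => 1) = 1 * Q := by
    simp only [QN, Ex.val, vPN, vNN, vVN, vMN]; rw [hQ]; push_cast; ring
  have vFN : FN.val X (fun _ => 1) = 1 * F := by
    simp only [FN, Ex.val, vQN, vrN, vDN]; rw [hF]; push_cast; ring
  have vYN : YN.val X (fun _ => 1) = 1 * Y := by
    simp only [YN, Ex.val, vMN, vPN, vNN, vrN, vDN]; rw [hY]; push_cast; ring
  have vEN : EN.val X (fun _ => 1) = 1 * E := by
    simp only [EN, Ex.val, vPN, vQN, vrN, vVN, vMN, vNN, vDN]; rw [hE]; push_cast; ring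
  have vZN : ZN.val X (fun _ => 1) = 1 * Z := by
    simp only [ZN, Ex.val, vvN, vVN, vMN, vYN, vBN, vDN, vbN, vAAN, vNN, vFN, vPN, vN3N, vEN, vQN]; rw [hZ]; push_cast; ring
  have vTN : TN.val X (fun _ => 1) = 1 * T := by
    simp only [TN, Ex.val, vQN, vBN, vDN, vEN, vFN, vZN]; rw [hT]; push_cast; ring
  exact vTN

theorem main (x0 x1 x2 v r b P M N AA V N3 B D Q F Y E Z T : ℝ) (hx0 : (0 : ℝ) / 256 ≤ x0) (hx0' : x0 ≤ (256 : ℝ) / 256) (hx1 : (0 : ℝ) / 256 ≤ x1) (hx1' : x1 ≤ (101 : ℝ) / 256) (hx2 : (76 : ℝ) / 256 ≤ x2) (hx2' : x2 ≤ (180 : ℝ) / 256)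
    (hv : x0 = 1 * v)
    (hr : x1 = 1 * r)
    (hb : x2 = 1 * b)
    (hP : P = (((1 : ℝ) + r) * ((1 : ℝ) + r)))
    (hM : M = (((1 : ℝ) - r) * ((1 : ℝ) - r)))
    (hN : N = ((1 : ℝ) + (r * r)))
    (hAA : AA = (P * M))
    (hV : V = (v * v))
    (hN3 : N3 = ((N * N) * N))
    (hB : B = ((N * N) - (b * AA)))
    (hD : D = (P + (V * M)))
    (hQ : Q = ((P * P) + (((2 : ℝ) * N) * (V * M))))
    (hF : F = (Q - (((2 : ℝ) * r) * D)))
    (hY : Y = (M * ((P * N) + (r * D))))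
    (hE : E = (((P * P) * Q) + (((((2 : ℝ) * r) * V) * M) * (Q - (N * D)))))
    (hZ : Z = ((((((((2 : ℝ) * (v * V)) * M) * Y) * ((B * D) + ((((2 : ℝ) * b) * v) * (AA * N)))) * (N * F)) + (((P * N3) * (D * D)) * E)) - ((b * AA) * (Q * (E * F)))))
    (hT : T = ((((Q * (B * B)) * (D * D)) * ((E * F) * (E * F))) - (Z * Z)))
    :
    (0 ≤ T) := by
  have hv := vals x0 x1 x2 v r b P M N AA V N3 B D Q F Y E Z T hv hr hb hP hM hN hAA hV hN3 hB hD hQ hF hY hE hZ hT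
  have hc := core x0 x1 x2 hx0 hx0' hx1 hx1' hx2 hx2'
  have w0 := hv
  simp only [w0] at hc
  have a0 := hc
  exact nonneg_of_mul_nonneg_right a0 (by positivity)

end Crest.Agent.R307.Edge.B0l
private theorem rz_ea0c79ee19 : type_of% @_root_.Crest.Agent.R307.Edge.B0l.xv.eq_1 := @_root_.Crest.Agent.R307.Edge.B0l.xv.eq_1 -- L13
end

-- ▼ part R307/Edge/B3x
section

set_option autoImplicit false

namespace Crest.Agent.R307.Edge.B3

open Crest.Agent.KB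

def vN : Ex := (.X 0 1)
def rN : Ex := (.X 1 1)
def bN : Ex := (.X 2 1)
def PN : Ex := (.mul (.add (.mul (.W 1 1) (.c (1))) rN) (.add (.mul (.W 1 1) (.c (1))) rN))
def MN : Ex := (.mul (.sub (.mul (.W 1 1) (.c (1))) rN) (.sub (.mul (.W 1 1) (.c (1))) rN))
def NN : Ex := (.add (.mul (.W 1 2) (.c (1))) (.mul rN rN))
def AAN : Ex := (.mul PN MN)
def VN : Ex := (.mul vN vN)
def N3N : Ex := (.mul (.mul NN NN) NN)
def BN : Ex := (.sub (.mul (.W 2 1) (.mul NN NN)) (.mul bN AAN))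
def DN : Ex := (.add (.mul (.W 0 2) PN) (.mul VN MN))
def QN : Ex := (.add (.mul (.W 0 2) (.mul PN PN)) (.mul (.mul (.c (2)) NN) (.mul VN MN)))
def FN : Ex := (.sub QN (.mul (.W 1 1) (.mul (.mul (.c (2)) rN) DN)))
def YN : Ex := (.sub (.mul (.W 0 2) (.mul PN NN)) (.mul (.W 1 1) (.mul rN DN)))
def EN : Ex := (.sub (.mul (.W 0 2) (.mul PN QN)) (.mul (.W 1 1) (.mul (.mul (.mul (.c (2)) rN) VN) (.sub QN (.mul NN DN)))))
def ZN : Ex := (.sub (.add (.mul (.mul (.mul (.mul (.mul (.c (2)) (.mul vN VN)) MN) YN) (.add (.mul BN DN) (.mul (.W 0 1) (.mul (.mul (.mul (.c (2)) bN) vN) (.mul AAN NN))))) (.mul NN FN)) (.mul (.W 2 1) (.mul (.W 0 1) (.mul (.mul (.mul PN N3N) (.mul DN DN)) EN)))) (.mul (.W 0 1) (.mul (.mul bN AAN) (.mul QN (.mul EN FN)))))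
def TN : Ex := (.sub (.mul (.mul (.mul QN (.mul BN BN)) (.mul DN DN)) (.mul (.mul EN FN) (.mul EN FN))) (.mul ZN ZN))

set_option maxRecDepth 100000 in
theorem run_ok : run 3 534 8 [19, 37, 3] [512, 202, 360] [[TN]]
    (.leaf 0) [(0, 256), (0, 101), (76, 180)] = true := by
  decide +kernel

end Crest.Agent.R307.Edge.B3
end

-- ▼ part R307/Edge/B3
section

set_option autoImplicit false
set_option linter.unusedSimpArgs false
set_option linter.unusedTactic false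
set_option linter.unusedVariables false

namespace Crest.Agent.R307.Edge.B3

open Crest.Agent.KB

/-- the point -/
def xv (x0 x1 x2 : ℝ) : ℕ → ℝ
  | 0 => x0
  | 1 => x1
  | _ => x2

theorem core (x0 x1 x2 : ℝ) (hx0 : (0 : ℝ) / 256 ≤ x0) (hx0' : x0 ≤ (256 : ℝ) / 256) (hx1 : (0 : ℝ) / 256 ≤ x1) (hx1' : x1 ≤ (101 : ℝ) / 256) (hx2 : (76 : ℝ) / 256 ≤ x2) (hx2' : x2 ≤ (180 : ℝ) / 256) :
    (0 ≤ TN.val (xv x0 x1 x2) (fun _ => 1)) := by
  obtain ⟨cl, hcl, h⟩ := run_sound _ _ _ _ _ _ _ _ run_ok (xv x0 x1 x2) (by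
    intro i hi
    interval_cases i <;> norm_num [ba, bb, xv] <;> constructor <;> linarith)
  simp only [List.mem_cons, List.not_mem_nil, or_false] at hcl
  subst hcl
  exact h TN (by simp)

theorem vals (x0 x1 x2 v r b P M N AA V N3 B D Q F Y E Z T : ℝ)
    (hv : x0 = 1 * v)
    (hr : x1 = 1 * r)
    (hb : x2 = 1 * b)
    (hP : P = (((1 : ℝ) + r) * ((1 : ℝ) + r)))
    (hM : M = (((1 : ℝ) - r) * ((1 : ℝ) - r)))
    (hN : N = ((1 : ℝ) + (r * r)))
    (hAA : AA = (P * M))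
    (hV : V = (v * v))
    (hN3 : N3 = ((N * N) * N))
    (hB : B = ((N * N) - (b * AA)))
    (hD : D = (P + (V * M)))
    (hQ : Q = ((P * P) + (((2 : ℝ) * N) * (V * M))))
    (hF : F = (Q - (((2 : ℝ) * r) * D)))
    (hY : Y = ((P * N) - (r * D)))
    (hE : E = ((P * Q) - ((((2 : ℝ) * r) * V) * (Q - (N * D)))))
    (hZ : Z = ((((((((2 : ℝ) * (v * V)) * M) * Y) * ((B * D) + ((((2 : ℝ) * b) * v) * (AA * N)))) * (N * F)) + (((P * N3) * (D * D)) * E)) - ((b * AA) * (Q * (E * F)))))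
    (hT : T = ((((Q * (B * B)) * (D * D)) * ((E * F) * (E * F))) - (Z * Z)))
    :
    TN.val (xv x0 x1 x2) (fun _ => 1) = 1 * T := by
  set X := (xv x0 x1 x2) with hX
  have e0 : X 0 = x0 := rfl
  have e1 : X 1 = x1 := rfl
  have e2 : X 2 = x2 := rfl
  have vvN : vN.val X (fun _ => 1) = 1 * v := by
    simp only [vN, Ex.val, e0, e1, e2]; rw [← hv]; push_cast; ring
  have vrN : rN.val X (fun _ => 1) = 1 * r := by
    simp only [rN, Ex.val, e0, e1, e2]; rw [← hr]; push_cast; ring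
  have vbN : bN.val X (fun _ => 1) = 1 * b := by
    simp only [bN, Ex.val, e0, e1, e2]; rw [← hb]; push_cast; ring
  clear_value X
  have vPN : PN.val X (fun _ => 1) = 1 * P := by
    simp only [PN, Ex.val, vrN]; rw [hP]; push_cast; ring
  have vMN : MN.val X (fun _ => 1) = 1 * M := by
    simp only [MN, Ex.val, vrN]; rw [hM]; push_cast; ring
  have vNN : NN.val X (fun _ => 1) = 1 * N := by
    simp only [NN, Ex.val, vrN]; rw [hN]; push_cast; ring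
  have vAAN : AAN.val X (fun _ => 1) = 1 * AA := by
    simp only [AAN, Ex.val, vPN, vMN]; rw [hAA]; push_cast; ring
  have vVN : VN.val X (fun _ => 1) = 1 * V := by
    simp only [VN, Ex.val, vvN]; rw [hV]; push_cast; ring
  have vN3N : N3N.val X (fun _ => 1) = 1 * N3 := by
    simp only [N3N, Ex.val, vNN]; rw [hN3]; push_cast; ring
  have vBN : BN.val X (fun _ => 1) = 1 * B := by
    simp only [BN, Ex.val, vNN, vbN, vAAN]; rw [hB]; push_cast; ring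
  have vDN : DN.val X (fun _ => 1) = 1 * D := by
    simp only [DN, Ex.val, vPN, vVN, vMN]; rw [hD]; push_cast; ring
  have vQN : QN.val X (fun _ => 1) = 1 * Q := by
    simp only [QN, Ex.val, vPN, vNN, vVN, vMN]; rw [hQ]; push_cast; ring
  have vFN : FN.val X (fun _ => 1) = 1 * F := by
    simp only [FN, Ex.val, vQN, vrN, vDN]; rw [hF]; push_cast; ring
  have vYN : YN.val X (fun _ => 1) = 1 * Y := by
    simp only [YN, Ex.val, vPN, vNN, vrN, vDN]; rw [hY]; push_cast; ring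
  have vEN : EN.val X (fun _ => 1) = 1 * E := by
    simp only [EN, Ex.val, vPN, vQN, vrN, vVN, vNN, vDN]; rw [hE]; push_cast; ring
  have vZN : ZN.val X (fun _ => 1) = 1 * Z := by
    simp only [ZN, Ex.val, vvN, vVN, vMN, vYN, vBN, vDN, vbN, vAAN, vNN, vFN, vPN, vN3N, vEN, vQN]; rw [hZ]; push_cast; ring
  have vTN : TN.val X (fun _ => 1) = 1 * T := by
    simp only [TN, Ex.val, vQN, vBN, vDN, vEN, vFN, vZN]; rw [hT]; push_cast; ring
  exact vTN

theorem main (x0 x1 x2 v r b P M N AA V N3 B D Q F Y E Z T : ℝ) (hx0 : (0 : ℝ) / 256 ≤ x0) (hx0' : x0 ≤ (256 : ℝ) / 256) (hx1 : (0 : ℝ) / 256 ≤ x1) (hx1' : x1 ≤ (101 : ℝ) / 256) (hx2 : (76 : ℝ) / 256 ≤ x2) (hx2' : x2 ≤ (180 : ℝ) / 256)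
    (hv : x0 = 1 * v)
    (hr : x1 = 1 * r)
    (hb : x2 = 1 * b)
    (hP : P = (((1 : ℝ) + r) * ((1 : ℝ) + r)))
    (hM : M = (((1 : ℝ) - r) * ((1 : ℝ) - r)))
    (hN : N = ((1 : ℝ) + (r * r)))
    (hAA : AA = (P * M))
    (hV : V = (v * v))
    (hN3 : N3 = ((N * N) * N))
    (hB : B = ((N * N) - (b * AA)))
    (hD : D = (P + (V * M)))
    (hQ : Q = ((P * P) + (((2 : ℝ) * N) * (V * M))))
    (hF : F = (Q - (((2 : ℝ) * r) * D)))
    (hY : Y = ((P * N) - (r * D)))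
    (hE : E = ((P * Q) - ((((2 : ℝ) * r) * V) * (Q - (N * D)))))
    (hZ : Z = ((((((((2 : ℝ) * (v * V)) * M) * Y) * ((B * D) + ((((2 : ℝ) * b) * v) * (AA * N)))) * (N * F)) + (((P * N3) * (D * D)) * E)) - ((b * AA) * (Q * (E * F)))))
    (hT : T = ((((Q * (B * B)) * (D * D)) * ((E * F) * (E * F))) - (Z * Z)))
    :
    (0 ≤ T) := by
  have hv := vals x0 x1 x2 v r b P M N AA V N3 B D Q F Y E Z T hv hr hb hP hM hN hAA hV hN3 hB hD hQ hF hY hE hZ hT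
  have hc := core x0 x1 x2 hx0 hx0' hx1 hx1' hx2 hx2'
  have w0 := hv
  simp only [w0] at hc
  have a0 := hc
  exact nonneg_of_mul_nonneg_right a0 (by positivity)

end Crest.Agent.R307.Edge.B3
private theorem rz_c0b67621df : type_of% @_root_.Crest.Agent.R307.Edge.B3.xv.eq_1 := @_root_.Crest.Agent.R307.Edge.B3.xv.eq_1 -- L13
end

-- ▼ part R307/Edge/B0sx
section

set_option autoImplicit false

namespace Crest.Agent.R307.Edge.B0s

open Crest.Agent.KB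

def vN : Ex := (.X 0 1)
def rN : Ex := (.X 1 1)
def bN : Ex := (.X 2 1)
def PN : Ex := (.mul (.add (.mul (.W 1 1) (.c (1))) rN) (.add (.mul (.W 1 1) (.c (1))) rN))
def MN : Ex := (.mul (.sub (.mul (.W 1 1) (.c (1))) rN) (.sub (.mul (.W 1 1) (.c (1))) rN))
def NN : Ex := (.add (.mul (.W 1 2) (.c (1))) (.mul rN rN))
def AAN : Ex := (.mul PN MN)
def VN : Ex := (.mul vN vN)
def N3N : Ex := (.mul (.mul NN NN) NN)
def BN : Ex := (.sub (.mul (.W 2 1) (.mul NN NN)) (.mul bN AAN))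
def DN : Ex := (.add (.mul (.W 0 2) MN) (.mul VN PN))
def QN : Ex := (.add (.mul (.W 0 2) (.mul (.mul (.c (2)) NN) MN)) (.mul VN (.mul PN PN)))
def FN : Ex := (.sub QN (.mul (.W 1 1) (.mul (.mul (.c (2)) rN) DN)))
def YN : Ex := (.mul (.mul MN NN) (.add (.mul (.mul VN PN) NN) (.mul (.W 1 1) (.mul rN DN))))
def EN : Ex := (.add (.mul (.mul VN (.mul PN PN)) QN) (.mul (.W 1 1) (.mul (.W 0 2) (.mul (.mul (.mul (.c (2)) rN) MN) (.sub QN (.mul NN DN))))))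
def ZN : Ex := (.sub (.add (.mul (.W 0 3) (.mul (.mul (.mul (.mul (.c (2)) MN) YN) (.add (.mul BN DN) (.mul (.W 0 1) (.mul (.mul (.mul (.c (2)) bN) vN) (.mul AAN NN))))) FN)) (.mul (.W 2 1) (.mul (.mul (.mul (.mul vN PN) N3N) (.mul DN DN)) EN))) (.mul (.mul (.mul bN vN) AAN) (.mul QN (.mul EN FN))))
def TN : Ex := (.sub (.mul (.mul (.mul QN (.mul BN BN)) (.mul DN DN)) (.mul (.mul EN FN) (.mul EN FN))) (.mul ZN ZN))

set_option maxRecDepth 100000 in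
theorem run_ok : run 3 572 8 [19, 41, 3] [512, 202, 360] [[TN]]
    (.leaf 0) [(0, 256), (0, 101), (76, 180)] = true := by
  decide +kernel

end Crest.Agent.R307.Edge.B0s
end

-- ▼ part R307/Edge/B0s
section

set_option autoImplicit false
set_option linter.unusedSimpArgs false
set_option linter.unusedTactic false
set_option linter.unusedVariables false

namespace Crest.Agent.R307.Edge.B0s

open Crest.Agent.KB

/-- the point -/
def xv (x0 x1 x2 : ℝ) : ℕ → ℝ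
  | 0 => x0
  | 1 => x1
  | _ => x2

theorem core (x0 x1 x2 : ℝ) (hx0 : (0 : ℝ) / 256 ≤ x0) (hx0' : x0 ≤ (256 : ℝ) / 256) (hx1 : (0 : ℝ) / 256 ≤ x1) (hx1' : x1 ≤ (101 : ℝ) / 256) (hx2 : (76 : ℝ) / 256 ≤ x2) (hx2' : x2 ≤ (180 : ℝ) / 256) :
    (0 ≤ TN.val (xv x0 x1 x2) (fun _ => 1)) := by
  obtain ⟨cl, hcl, h⟩ := run_sound _ _ _ _ _ _ _ _ run_ok (xv x0 x1 x2) (by
    intro i hi
    interval_cases i <;> norm_num [ba, bb, xv] <;> constructor <;> linarith)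
  simp only [List.mem_cons, List.not_mem_nil, or_false] at hcl
  subst hcl
  exact h TN (by simp)

theorem vals (x0 x1 x2 v r b P M N AA V N3 B D Q F Y E Z T : ℝ)
    (hv : x0 = 1 * v)
    (hr : x1 = 1 * r)
    (hb : x2 = 1 * b)
    (hP : P = (((1 : ℝ) + r) * ((1 : ℝ) + r)))
    (hM : M = (((1 : ℝ) - r) * ((1 : ℝ) - r)))
    (hN : N = ((1 : ℝ) + (r * r)))
    (hAA : AA = (P * M))
    (hV : V = (v * v))
    (hN3 : N3 = ((N * N) * N))
    (hB : B = ((N * N) - (b * AA)))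
    (hD : D = (M + (V * P)))
    (hQ : Q = ((((2 : ℝ) * N) * M) + (V * (P * P))))
    (hF : F = (Q - (((2 : ℝ) * r) * D)))
    (hY : Y = ((M * N) * (((V * P) * N) + (r * D))))
    (hE : E = (((V * (P * P)) * Q) + ((((2 : ℝ) * r) * M) * (Q - (N * D)))))
    (hZ : Z = (((((((2 : ℝ) * M) * Y) * ((B * D) + ((((2 : ℝ) * b) * v) * (AA * N)))) * F) + ((((v * P) * N3) * (D * D)) * E)) - (((b * v) * AA) * (Q * (E * F)))))
    (hT : T = ((((Q * (B * B)) * (D * D)) * ((E * F) * (E * F))) - (Z * Z)))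
    :
    TN.val (xv x0 x1 x2) (fun _ => 1) = 1 * T := by
  set X := (xv x0 x1 x2) with hX
  have e0 : X 0 = x0 := rfl
  have e1 : X 1 = x1 := rfl
  have e2 : X 2 = x2 := rfl
  have vvN : vN.val X (fun _ => 1) = 1 * v := by
    simp only [vN, Ex.val, e0, e1, e2]; rw [← hv]; push_cast; ring
  have vrN : rN.val X (fun _ => 1) = 1 * r := by
    simp only [rN, Ex.val, e0, e1, e2]; rw [← hr]; push_cast; ring
  have vbN : bN.val X (fun _ => 1) = 1 * b := by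
    simp only [bN, Ex.val, e0, e1, e2]; rw [← hb]; push_cast; ring
  clear_value X
  have vPN : PN.val X (fun _ => 1) = 1 * P := by
    simp only [PN, Ex.val, vrN]; rw [hP]; push_cast; ring
  have vMN : MN.val X (fun _ => 1) = 1 * M := by
    simp only [MN, Ex.val, vrN]; rw [hM]; push_cast; ring
  have vNN : NN.val X (fun _ => 1) = 1 * N := by
    simp only [NN, Ex.val, vrN]; rw [hN]; push_cast; ring
  have vAAN : AAN.val X (fun _ => 1) = 1 * AA := by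
    simp only [AAN, Ex.val, vPN, vMN]; rw [hAA]; push_cast; ring
  have vVN : VN.val X (fun _ => 1) = 1 * V := by
    simp only [VN, Ex.val, vvN]; rw [hV]; push_cast; ring
  have vN3N : N3N.val X (fun _ => 1) = 1 * N3 := by
    simp only [N3N, Ex.val, vNN]; rw [hN3]; push_cast; ring
  have vBN : BN.val X (fun _ => 1) = 1 * B := by
    simp only [BN, Ex.val, vNN, vbN, vAAN]; rw [hB]; push_cast; ring
  have vDN : DN.val X (fun _ => 1) = 1 * D := by
    simp only [DN, Ex.val, vMN, vVN, vPN]; rw [hD]; push_cast; ring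
  have vQN : QN.val X (fun _ => 1) = 1 * Q := by
    simp only [QN, Ex.val, vNN, vMN, vVN, vPN]; rw [hQ]; push_cast; ring
  have vFN : FN.val X (fun _ => 1) = 1 * F := by
    simp only [FN, Ex.val, vQN, vrN, vDN]; rw [hF]; push_cast; ring
  have vYN : YN.val X (fun _ => 1) = 1 * Y := by
    simp only [YN, Ex.val, vMN, vNN, vVN, vPN, vrN, vDN]; rw [hY]; push_cast; ring
  have vEN : EN.val X (fun _ => 1) = 1 * E := by
    simp only [EN, Ex.val, vVN, vPN, vQN, vrN, vMN, vNN, vDN]; rw [hE]; push_cast; ring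
  have vZN : ZN.val X (fun _ => 1) = 1 * Z := by
    simp only [ZN, Ex.val, vMN, vYN, vBN, vDN, vbN, vvN, vAAN, vNN, vFN, vPN, vN3N, vEN, vQN]; rw [hZ]; push_cast; ring
  have vTN : TN.val X (fun _ => 1) = 1 * T := by
    simp only [TN, Ex.val, vQN, vBN, vDN, vEN, vFN, vZN]; rw [hT]; push_cast; ring
  exact vTN

theorem main (x0 x1 x2 v r b P M N AA V N3 B D Q F Y E Z T : ℝ) (hx0 : (0 : ℝ) / 256 ≤ x0) (hx0' : x0 ≤ (256 : ℝ) / 256) (hx1 : (0 : ℝ) / 256 ≤ x1) (hx1' : x1 ≤ (101 : ℝ) / 256) (hx2 : (76 : ℝ) / 256 ≤ x2) (hx2' : x2 ≤ (180 : ℝ) / 256)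
    (hv : x0 = 1 * v)
    (hr : x1 = 1 * r)
    (hb : x2 = 1 * b)
    (hP : P = (((1 : ℝ) + r) * ((1 : ℝ) + r)))
    (hM : M = (((1 : ℝ) - r) * ((1 : ℝ) - r)))
    (hN : N = ((1 : ℝ) + (r * r)))
    (hAA : AA = (P * M))
    (hV : V = (v * v))
    (hN3 : N3 = ((N * N) * N))
    (hB : B = ((N * N) - (b * AA)))
    (hD : D = (M + (V * P)))
    (hQ : Q = ((((2 : ℝ) * N) * M) + (V * (P * P))))
    (hF : F = (Q - (((2 : ℝ) * r) * D)))
    (hY : Y = ((M * N) * (((V * P) * N) + (r * D))))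
    (hE : E = (((V * (P * P)) * Q) + ((((2 : ℝ) * r) * M) * (Q - (N * D)))))
    (hZ : Z = (((((((2 : ℝ) * M) * Y) * ((B * D) + ((((2 : ℝ) * b) * v) * (AA * N)))) * F) + ((((v * P) * N3) * (D * D)) * E)) - (((b * v) * AA) * (Q * (E * F)))))
    (hT : T = ((((Q * (B * B)) * (D * D)) * ((E * F) * (E * F))) - (Z * Z)))
    :
    (0 ≤ T) := by
  have hv := vals x0 x1 x2 v r b P M N AA V N3 B D Q F Y E Z T hv hr hb hP hM hN hAA hV hN3 hB hD hQ hF hY hE hZ hT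
  have hc := core x0 x1 x2 hx0 hx0' hx1 hx1' hx2 hx2'
  have w0 := hv
  simp only [w0] at hc
  have a0 := hc
  exact nonneg_of_mul_nonneg_right a0 (by positivity)

end Crest.Agent.R307.Edge.B0s
private theorem rz_32f2e2a31d : type_of% @_root_.Crest.Agent.R307.Edge.B0s.xv.eq_1 := @_root_.Crest.Agent.R307.Edge.B0s.xv.eq_1 -- L13
end

-- ▼ part R307/Edge/B2

set_option autoImplicit false
set_option linter.unusedSimpArgs false
set_option linter.unusedTactic false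
set_option linter.unusedVariables false

namespace Crest.Agent.R307.Edge.B2

open Crest.Agent.KB

/-- the point -/
def xv (x0 x1 x2 : ℝ) : ℕ → ℝ
  | 0 => x0
  | 1 => x1
  | _ => x2

theorem core (x0 x1 x2 : ℝ) (hx0 : (0 : ℝ) / 256 ≤ x0) (hx0' : x0 ≤ (256 : ℝ) / 256) (hx1 : (0 : ℝ) / 256 ≤ x1) (hx1' : x1 ≤ (101 : ℝ) / 256) (hx2 : (76 : ℝ) / 256 ≤ x2) (hx2' : x2 ≤ (180 : ℝ) / 256) :
    (0 ≤ TN.val (xv x0 x1 x2) (fun _ => 1)) := by
  obtain ⟨cl, hcl, h⟩ := run_sound _ _ _ _ _ _ _ _ run_ok (xv x0 x1 x2) (by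
    intro i hi
    interval_cases i <;> norm_num [ba, bb, xv] <;> constructor <;> linarith)
  simp only [List.mem_cons, List.not_mem_nil, or_false] at hcl
  subst hcl
  exact h TN (by simp)

theorem vals (x0 x1 x2 v r b P M N AA V N3 B D Q F Y E Z T : ℝ)
    (hv : x0 = 1 * v)
    (hr : x1 = 1 * r)
    (hb : x2 = 1 * b)
    (hP : P = (((1 : ℝ) + r) * ((1 : ℝ) + r)))
    (hM : M = (((1 : ℝ) - r) * ((1 : ℝ) - r)))
    (hN : N = ((1 : ℝ) + (r * r)))
    (hAA : AA = (P * M))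
    (hV : V = (v * v))
    (hN3 : N3 = ((N * N) * N))
    (hB : B = ((N * N) - (b * AA)))
    (hD : D = (M + (V * P)))
    (hQ : Q = ((((2 : ℝ) * N) * M) + (V * (P * P))))
    (hF : F = (Q - (((2 : ℝ) * r) * D)))
    (hY : Y = ((M * N) + (r * D)))
    (hE : E = (Q + (((2 : ℝ) * r) * D)))
    (hZ : Z = (((((((2 : ℝ) * M) * Y) * ((B * D) + ((((2 : ℝ) * b) * v) * (AA * N)))) * F) + ((((v * P) * N3) * (D * D)) * E)) - (((b * v) * AA) * (Q * (E * F)))))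
    (hT : T = ((((Q * (B * B)) * (D * D)) * ((E * F) * (E * F))) - (Z * Z)))
    :
    TN.val (xv x0 x1 x2) (fun _ => 1) = 1 * T := by
  set X := (xv x0 x1 x2) with hX
  have e0 : X 0 = x0 := rfl
  have e1 : X 1 = x1 := rfl
  have e2 : X 2 = x2 := rfl
  have vvN : vN.val X (fun _ => 1) = 1 * v := by
    simp only [vN, Ex.val, e0, e1, e2]; rw [← hv]; push_cast; ring
  have vrN : rN.val X (fun _ => 1) = 1 * r := by
    simp only [rN, Ex.val, e0, e1, e2]; rw [← hr]; push_cast; ring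
  have vbN : bN.val X (fun _ => 1) = 1 * b := by
    simp only [bN, Ex.val, e0, e1, e2]; rw [← hb]; push_cast; ring
  clear_value X
  have vPN : PN.val X (fun _ => 1) = 1 * P := by
    simp only [PN, Ex.val, vrN]; rw [hP]; push_cast; ring
  have vMN : MN.val X (fun _ => 1) = 1 * M := by
    simp only [MN, Ex.val, vrN]; rw [hM]; push_cast; ring
  have vNN : NN.val X (fun _ => 1) = 1 * N := by
    simp only [NN, Ex.val, vrN]; rw [hN]; push_cast; ring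
  have vAAN : AAN.val X (fun _ => 1) = 1 * AA := by
    simp only [AAN, Ex.val, vPN, vMN]; rw [hAA]; push_cast; ring
  have vVN : VN.val X (fun _ => 1) = 1 * V := by
    simp only [VN, Ex.val, vvN]; rw [hV]; push_cast; ring
  have vN3N : N3N.val X (fun _ => 1) = 1 * N3 := by
    simp only [N3N, Ex.val, vNN]; rw [hN3]; push_cast; ring
  have vBN : BN.val X (fun _ => 1) = 1 * B := by
    simp only [BN, Ex.val, vNN, vbN, vAAN]; rw [hB]; push_cast; ring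
  have vDN : DN.val X (fun _ => 1) = 1 * D := by
    simp only [DN, Ex.val, vMN, vVN, vPN]; rw [hD]; push_cast; ring
  have vQN : QN.val X (fun _ => 1) = 1 * Q := by
    simp only [QN, Ex.val, vNN, vMN, vVN, vPN]; rw [hQ]; push_cast; ring
  have vFN : FN.val X (fun _ => 1) = 1 * F := by
    simp only [FN, Ex.val, vQN, vrN, vDN]; rw [hF]; push_cast; ring
  have vYN : YN.val X (fun _ => 1) = 1 * Y := by
    simp only [YN, Ex.val, vMN, vNN, vrN, vDN]; rw [hY]; push_cast; ring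
  have vEN : EN.val X (fun _ => 1) = 1 * E := by
    simp only [EN, Ex.val, vQN, vrN, vDN]; rw [hE]; push_cast; ring
  have vZN : ZN.val X (fun _ => 1) = 1 * Z := by
    simp only [ZN, Ex.val, vMN, vYN, vBN, vDN, vbN, vvN, vAAN, vNN, vFN, vPN, vN3N, vEN, vQN]; rw [hZ]; push_cast; ring
  have vTN : TN.val X (fun _ => 1) = 1 * T := by
    simp only [TN, Ex.val, vQN, vBN, vDN, vEN, vFN, vZN]; rw [hT]; push_cast; ring
  exact vTN

theorem main (x0 x1 x2 v r b P M N AA V N3 B D Q F Y E Z T : ℝ) (hx0 : (0 : ℝ) / 256 ≤ x0) (hx0' : x0 ≤ (256 : ℝ) / 256) (hx1 : (0 : ℝ) / 256 ≤ x1) (hx1' : x1 ≤ (101 : ℝ) / 256) (hx2 : (76 : ℝ) / 256 ≤ x2) (hx2' : x2 ≤ (180 : ℝ) / 256)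
    (hv : x0 = 1 * v)
    (hr : x1 = 1 * r)
    (hb : x2 = 1 * b)
    (hP : P = (((1 : ℝ) + r) * ((1 : ℝ) + r)))
    (hM : M = (((1 : ℝ) - r) * ((1 : ℝ) - r)))
    (hN : N = ((1 : ℝ) + (r * r)))
    (hAA : AA = (P * M))
    (hV : V = (v * v))
    (hN3 : N3 = ((N * N) * N))
    (hB : B = ((N * N) - (b * AA)))
    (hD : D = (M + (V * P)))
    (hQ : Q = ((((2 : ℝ) * N) * M) + (V * (P * P))))
    (hF : F = (Q - (((2 : ℝ) * r) * D)))
    (hY : Y = ((M * N) + (r * D)))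
    (hE : E = (Q + (((2 : ℝ) * r) * D)))
    (hZ : Z = (((((((2 : ℝ) * M) * Y) * ((B * D) + ((((2 : ℝ) * b) * v) * (AA * N)))) * F) + ((((v * P) * N3) * (D * D)) * E)) - (((b * v) * AA) * (Q * (E * F)))))
    (hT : T = ((((Q * (B * B)) * (D * D)) * ((E * F) * (E * F))) - (Z * Z)))
    :
    (0 ≤ T) := by
  have hv := vals x0 x1 x2 v r b P M N AA V N3 B D Q F Y E Z T hv hr hb hP hM hN hAA hV hN3 hB hD hQ hF hY hE hZ hT
  have hc := core x0 x1 x2 hx0 hx0' hx1 hx1' hx2 hx2'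
  have w0 := hv
  simp only [w0] at hc
  have a0 := hc
  exact nonneg_of_mul_nonneg_right a0 (by positivity)

end Crest.Agent.R307.Edge.B2
private theorem rz_64c4dd955a : type_of% @_root_.Crest.Agent.R307.Edge.B2.xv.eq_1 := @_root_.Crest.Agent.R307.Edge.B2.xv.eq_1 -- L13
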